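import Vale.Agent.P283R.Sf.St

/-!
# P283R, block SF: the homogeneous elements of the algebra of the generators
-/

open Set MvPolynomial

noncomputable section

namespace Vale.Agent.P283R.Sf

open Vale.Agent.P287D Vale.Agent.P283R.Sl Vale.Agent.P283R.Cx Vale.Agent.P283R.Sg

namespace S27

variable {K : Type} [Field K] [Algebra ℂ K] {k N : ℕ} (s : Fin N → K) (a : Fin N → Fin k → ℤ)

theorem mo (m : Fin N →₀ ℕ) (r : ℂ) : aeval (fun j => sg (a j) (s j)) (monomial m r) =
    sg (dg a m) (r • ∏ j, s j ^ m j) := by
  rw [monomial_eq, Finsupp.prod_fintype _ _ (by simp), C_mul', map_smul, map_prod]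
  simp only [map_pow, aeval_X, AddMonoidAlgebra.single_pow, AddMonoidAlgebra.prod_single,
    AddMonoidAlgebra.smul_single]
  congr 1
  funext i
  simp [dg, Finset.sum_apply]

/-- the elements of the algebra of the generators -/
theorem mem_iff (F : Laurent K k) :
    F ∈ Algebra.adjoin ℂ (range fun j => sg (a j) (s j)) ↔ ∀ e, F.coeff e ∈ Sp s a e := by
  classical
  rw [Algebra.adjoin_range_eq_range_aeval]
  refine ⟨?_, fun h => ?_⟩
  · rintro ⟨p, rfl⟩ e
    induction p using induction_on' with
    | monomial m r =>
      change (aeval (fun j => sg (a j) (s j)) (monomial m r)).coeff e ∈ _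
      rw [mo, AddMonoidAlgebra.coeff_single, Finsupp.single_apply]
      split_ifs with z
      exacts [z ▸ Submodule.smul_mem _ _ (mon_mem s a m), zero_mem (Sp s a e)]
    | add p q hp hq => rw [map_add]; exact add_mem hp hq
  · have : ∀ e, ∀ φ ∈ Sp s a e, sg e φ ∈ (aeval (R := ℂ) fun j => sg (a j) (s j)).range :=
      fun e φ hφ => by
      induction hφ using Submodule.span_induction with
      | mem x hx =>
        obtain ⟨m, rfl, rfl⟩ := hx
        exact ⟨monomial (Finsupp.equivFunOnFinite.symm m) 1,
          (mo s a _ _).trans (by rw [one_smul]; rfl)⟩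
      | zero => exact ⟨0, by simp⟩
      | add x y _ _ hx hy => rw [sg, AddMonoidAlgebra.single_add]; exact add_mem hx hy
      | smul r x _ hx => rw [sg, ← AddMonoidAlgebra.smul_single]; exact Subalgebra.smul_mem _ hx _
    rw [← F.sum_coeff_single]
    exact (sum_mem fun e _ => this e _ (h e) : _ ∈ (aeval fun j => sg (a j) (s j)).range)

end S27

theorem spa27 : SPA := fun K _ _ k N s a e φ => by
  rw [S27.mem_iff]
  refine ⟨fun h => by simpa using h e, fun h n => ?_⟩
  by_cases z : e = n
  · subst z
    simpa using h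
  · simp [z]

end Vale.Agent.P283R.Sf
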