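import Vale.Agent.P283R.Sf.St
import Vale.Agent.P283R.Sg.Cnt40
import Vale.Agent.P283R.Sg.Gen19

/-!
# P283R, block SF: the action degree by degree
-/

set_option linter.all false

open Set

noncomputable section

namespace Vale.Agent.P283R.Sf

open Vale.Agent.P287D Vale.Agent.P283R.Sl Vale.Agent.P283R.Cx Vale.Agent.P283R.Sg

namespace A33

variable {K L : Type} [Field K] [Algebra ℂ K] [LieRing L] [LieAlgebra ℂ L] {k : ℕ}
  {ρ : L →ₗ⁅ℂ⁆ Derivation ℂ (Laurent K k) (Laurent K k)}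
  {σ : L →ₗ⁅ℂ⁆ Derivation ℂ K K} {c : L → (Fin k → ℤ) → K}

/-- the embedding of the degree `e` -/
def io (K : Type) [Field K] [Algebra ℂ K] (e : Fin k → ℤ) : K →ₗ[ℂ] Laurent K k :=
  AddMonoidAlgebra.lsingle e

theorem io_app (e : Fin k → ℤ) (φ : K) : io K e φ = sg e φ := rfl

theorem io_inj (e : Fin k → ℤ) : Function.Injective (io K e) := fun a b h => by
  have := congrArg (fun F : Laurent K k => F.coeff e) h
  simpa [io_app] using this

theorem app (r : Res ρ σ c) (δ : L) (e : Fin k → ℤ) (φ : K) :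
    ρ δ (io K e φ) = io K e (ac σ c δ e φ) := r.app δ e φ

theorem inv_map (r : Res ρ σ c) {e : Fin k → ℤ} {W : Submodule ℂ K} (h : Kp σ c e W) :
    Invariant ρ (W.map (io K e)) := by
  rintro δ _ ⟨φ, hφ, rfl⟩
  exact ⟨_, h δ φ hφ, (app r δ e φ).symm⟩

theorem kp_comap (r : Res ρ σ c) {e : Fin k → ℤ} {M : Submodule ℂ (Laurent K k)}
    (h : Invariant ρ M) : Kp σ c e (M.comap (io K e)) := fun δ φ hφ => by
  rw [Submodule.mem_comap, ← app r]
  exact h δ _ hφ

end A33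

open A33

/-- **ACKR** -/
theorem ackr33 : ACKR := by
  intro res lie gen K L _ _ _ _ d k T D x e₀ s b ρ f h σ c R r hR
  refine ⟨C40.c_add r, fun e δ φ hφ => ?_, fun e W W' hW hW' le le' => ?_,
    fun e W hW le ne => ?_, fun φ hφ => ?_, fun e θ hθ δ => ?_⟩
  · obtain ⟨ψ, h1, h2⟩ := h.graded δ e φ
    rw [io_inj e ((app r δ e φ).symm.trans h1)]
    exact (hR e ψ).2 (h2 ((hR e φ).1 hφ))
  · obtain ⟨M, m1, m2, m3⟩ := h.reducible _ _ (inv_map r hW) (inv_map r hW')
      (Submodule.map_mono le) (by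
        rintro _ ⟨φ, hφ, rfl⟩ m
        by_cases em : e = m
        · subst em
          have : (io K e φ).coeff e = φ := by simp [io_app]
          rw [this]
          exact (hR e φ).1 (le' hφ)
        · have : (io K e φ).coeff m = 0 := by simp [io_app, Finsupp.single_apply, em]
          rw [this]
          exact fun z => (z rfl).elim)
    refine ⟨M.comap (io K e), kp_comap r m1, Submodule.disjoint_def.2 fun y hy hy' =>
      io_inj e ((Submodule.disjoint_def.1 m2 _ ⟨y, hy, rfl⟩ hy').trans (map_zero _).symm),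
      le_antisymm (sup_le le fun y hy => ?_) fun y hy => ?_⟩
    · have : io K e y ∈ W'.map (io K e) := m3 ▸ Submodule.mem_sup_right hy
      obtain ⟨y', h1, h2⟩ := this
      exact io_inj e h2 ▸ h1
    · have : io K e y ∈ W.map (io K e) ⊔ M := m3.symm ▸ ⟨y, hy, rfl⟩
      obtain ⟨_, ⟨w, hw, rfl⟩, μ, hμ, em⟩ := Submodule.mem_sup.1 this
      refine Submodule.mem_sup.2 ⟨w, hw, y - w, ?_, add_sub_cancel _ _⟩
      rw [Submodule.mem_comap, map_sub, ← em, add_sub_cancel_left]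
      exact hμ
  · obtain ⟨φ, hφ, φ0⟩ := Submodule.exists_mem_ne_zero_of_ne_bot ne
    obtain ⟨N, n1, n2, n3⟩ := h.locFinite e φ ((hR e φ).1 (le hφ))
    obtain ⟨_, ⟨y1, y, hy, rfl⟩, y0, y2⟩ := lie _ L (G19.lin ρ) b (N ⊓ W.map (io K e))
      (G19.lin_lie ρ) h.solvable (Submodule.finiteDimensional_of_le inf_le_left)
      ((Submodule.ne_bot_iff _).2 ⟨io K e φ, ⟨n3, φ, hφ, rfl⟩,
        fun z => φ0 (io_inj e (z.trans (map_zero _).symm))⟩)
      fun δ _ u hu => ⟨n1 δ u hu.1, inv_map r hW δ u hu.2⟩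
    refine ⟨y, hy, fun z => y0 (by rw [z, map_zero]), fun δ hδ => ?_⟩
    obtain ⟨γ, hγ⟩ := y2 δ hδ
    exact ⟨γ, io_inj e (by rw [← app r, map_smul]; exact hγ)⟩
  · obtain ⟨σ', c', r', -, δ, y, hb, hj⟩ := res K L d k T D x e₀ s b ρ f h
    refine C40.con f.ff hj fun i => ?_
    have := io_inj 0 ((app r' (δ i) 0 φ).symm.trans (app r (δ i) 0 φ))
    rw [ac, ac, r.zero, r'.zero, zero_mul, add_zero, add_zero] at this
    exact this.trans (hφ _ (hb i))
  · obtain ⟨γ, hγ⟩ := (gen K L d k T D x e₀ s b ρ f h).1 e θ hθ δ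
    exact ⟨γ, io_inj e (by rw [← app r, map_smul]; exact hγ)⟩

end Vale.Agent.P283R.Sf
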