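import Vale.Agent.P283R.Sf.St
import Vale.Agent.P283R.Tq.Ta20

/-!
# P283R, block SF: the part of degree zero is finitely generated
-/

namespace Vale.Agent.P283R.Sf

theorem afg27 : AFG := fun _ _ _ _ _ _ _ _ h => Tq.T20.fg0 h

end Vale.Agent.P283R.Sf
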