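import Vale.Agent.P283R.Sf.St
import Vale.Agent.P283R.Tq.Nak99

/-!
# P283R, block SF: the monomials approximate
-/

open Set

noncomputable section

namespace Vale.Agent.P283R.Sf

open Vale.Agent.P287D Vale.Agent.P283R.Cx
open Vale.Agent.P283R.Lx.K33 (IeS iter Tm)
open Vale.Agent.P283R.Lx.O15
open Vale.Agent.P283R.Tq.N99

/-- **APX** -/
theorem apx99 : APX := by
  intro K _ _ k N r T D s a A m z v h hz un ie sz e
  have pr : ∀ {e θ}, Tq.Pr T D e θ → θ ∈ Sp s a e := fun p =>
    (h.sec _ _ p.1).2 fun P q => (p.2 P q).ge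
  have dv : ∀ β : Fin r → ℕ, dg v β = Tq.cv v fun j => β j := fun β =>
    funext fun i => by simp [dg, Tq.cv]
  have mo : ∀ e, Mz T D z v e = Tq.Mo T D (Fin.elim0 : Fin 0 → K) z v e := fun e =>
    congrArg (Submodule.span ℂ) (Set.ext fun y => ⟨fun ⟨β, θ, p, q⟩ => ⟨0, β, θ, dv β ▸ p, by simpa using q⟩,
      fun ⟨_, β, θ, p, q⟩ => ⟨β, θ, dv β ▸ p, by simpa using q⟩⟩)
  refine ⟨Submodule.span_le.2 ?_, fun i => ?_⟩
  · rintro _ ⟨β, θ, p, rfl⟩
    have k1 : ∀ S : Finset (Fin r), ∏ j ∈ S, z j ^ β j ∈ Sp s a (∑ j ∈ S, β j • v j) := fun S => by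
      classical
      induction S using Finset.induction_on with
      | empty => simpa using one_sp s a
      | insert j S hj ih =>
        rw [Finset.prod_insert hj, Finset.sum_insert hj]
        refine sp_mul ?_ ih
        induction β j with
        | zero => simpa using one_sp s a
        | succ n ih => rw [pow_succ, succ_nsmul]; exact sp_mul ih (ie j).1
    have k2 := sp_mul (k1 Finset.univ) (pr p)
    rwa [show ∑ j, β j • v j = dg v β from funext fun i => by simp [dg], add_sub_cancel] at k2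
  have k := iter (τ := (Fin.elim0 : Fin 0 → A)) (A := A) (m := m) (s := s) (a := a)
    (M := Tq.Mo T D (Fin.elim0 : Fin 0 → K) z v) mo_mul
    (fun e φ p => (un e φ p).elim (fun q => ⟨0, zero_mem _, by rwa [sub_zero]⟩)
      fun ⟨θ, γ, q, q'⟩ => ⟨_, Submodule.smul_mem _ γ (mo_pr q), q'⟩)
    (fun e φ p => by
      obtain ⟨x, hx, y, hy, rfl⟩ := Submodule.mem_sup.1 (sz e φ p)
      have : x ∈ Tq.Mo T D (Fin.elim0 : Fin 0 → K) z v e ⊓ IeS hz m e := by
        refine Submodule.span_le.2 ?_ hx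
        rintro _ ⟨j, θ, q, rfl⟩
        have k1 := mo_mul (mo_z (τ := (Fin.elim0 : Fin 0 → K)) (z := z) (w := v) j) (mo_pr q)
        have k2 := ie_mul (ie j) (pr q)
        rw [add_sub_cancel] at k1 k2
        exact ⟨k1, k2⟩
      exact ⟨x, this.1, this.2, by
        rw [add_sub_cancel_left]
        exact Submodule.mem_sup_left hy⟩) e i
  rw [mo]
  refine k.trans (sup_le_sup inf_le_left (sup_le le_rfl (Submodule.span_le.2 ?_)))
  rintro _ ⟨j, _⟩
  exact j.elim0

end Vale.Agent.P283R.Sf
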