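import Vale.Agent.P283R.Sf.St

/-!
# P283R, block SF: the assembly of the pointed data
-/

open Set

noncomputable section

namespace Vale.Agent.P283R.Sf

open Vale.Agent.P287D Vale.Agent.P283R.Sl Vale.Agent.P283R.Cx Vale.Agent.P283R.Sg
open Vale.Agent.P283R.Lx (Nz Ie)
open Vale.Agent.P283R.Lx.K33 (I2 IeS)
open Vale.Agent.P283R.Lx.G3 (gen_sp sp_le)
open Vale.Agent.P283R.Tq (Pd)

namespace A91

variable {K : Type} [Field K] [Algebra ℂ K] {k r : ℕ} {T : Set (Pl K)} {D : Pl K → Fin k → ℤ}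
  {z : Fin r → K} {v : Fin r → Fin k → ℤ} {e : Fin k → ℤ} {φ : K}

theorem units (h : φ ∈ Mz T D z v e) : ∃ J : Finset ((Fin k → ℤ) × K),
    (∀ p ∈ J, Tq.Pr T D p.1 p.2) ∧ ∀ (n : ℕ) (g : Fin n → K) (u : Fin n → Fin k → ℤ),
      (∀ p ∈ J, p.2 ∈ Sp g u p.1) → φ ∈ Sp (Fin.append g z) (Fin.append u v) e := by
  classical
  induction h using Submodule.span_induction with
  | mem x hx =>
    obtain ⟨β, θ, p, rfl⟩ := hx
    refine ⟨{(e - dg v β, θ)}, fun q hq => Finset.mem_singleton.1 hq ▸ p, fun n g u h => ?_⟩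
    have a := sp_le (M := Sp (Fin.append g z) (Fin.append u v)) sp_mul (Lx.O15.one_sp _ _)
      (fun j => by simpa using gen_sp (Fin.append g z) (Fin.append u v) (Fin.castAdd r j)) _
      (h _ (Finset.mem_singleton_self _))
    have b := sp_le (M := Sp (Fin.append g z) (Fin.append u v)) sp_mul (Lx.O15.one_sp _ _)
      (fun j => by simpa using gen_sp (Fin.append g z) (Fin.append u v) (Fin.natAdd n j)) _
      (mon_mem z v β)
    simpa using sp_mul b a
  | zero => exact ⟨∅, fun j hj => (Finset.notMem_empty j hj).elim, fun _ _ _ _ => zero_mem _⟩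
  | add x y _ _ hx hy =>
    obtain ⟨J, a, b⟩ := hx
    obtain ⟨J', a', b'⟩ := hy
    exact ⟨J ∪ J', fun i hi => (Finset.mem_union.1 hi).elim (a i) (a' i), fun n g u h =>
      add_mem (b n g u fun p hp => h p (Finset.mem_union_left _ hp))
        (b' n g u fun p hp => h p (Finset.mem_union_right _ hp))⟩
  | smul c x _ hx =>
    obtain ⟨J, a, b⟩ := hx
    exact ⟨J, a, fun n g u h => Submodule.smul_mem _ c (b n g u h)⟩

end A91

/-- all fields but the last one -/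
theorem core (fct : Sg.FCT) (cox : COX) (afg : AFG) (sys : SYS) (ack : ACK) (hwk : HWK) (inv : INV)
    (uni : UNI) (mins : MINS) (spk : SPK) (apx : APX) (nak : NAKG) :
    Sg.ForS fun K L _ _ _ _ d k T D _ _ _ _ ρ =>
      ∀ (N : ℕ) (σ : L →ₗ⁅ℂ⁆ Derivation ℂ K K) (c : L → (Fin k → ℤ) → K) (A : Subalgebra ℂ K)
        (m : Ideal A), GradedGen N (Sec T D) → Res ρ σ c → (∀ g, g ∈ A ↔ g ∈ Sec T D 0) →
        m.IsMaximal → (∀ δ, ∀ g ∈ A, ¬ Nz A m (σ δ g)) → ∃ (N' : ℕ) (s : Fin N' → K)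
          (a : Fin N' → Fin k → ℤ) (J : Finset (Fin N')), Uni T D s a A m ∧ Cox T D s a ∧
          (∀ x, x ∈ A ↔ x ∈ Sp s a 0) ∧ (∀ j ∉ J, Tq.Pr T D (a j) (s j)) ∧
          (∀ j ∈ J, s j ∈ Ie A m s a (a j)) ∧ Mn T D s a A m s a J ∧ N' ≤ k + ell d ∧ A.FG ∧
          (∀ θ, Tq.Pr T D 0 θ → θ ∈ range (algebraMap ℂ K)) ∧
          ∀ Z : Pl K → ℤ, {P | P ∈ T ∧ Z P ≠ 0}.Finite →
            ∃ (θ : K) (e : Fin k → ℤ), θ ≠ 0 ∧ ∀ P ∈ T, Z P = P.ord θ + e ⬝ᵥ D P := by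
  classical
  intro K L _ _ _ _ d k T D x e s b ρ hF hS N σ c A m hN hr hA mx fix
  obtain ⟨s0, a0, c0⟩ := cox K d k N T D x e hF hN
  have sec : ∀ e φ, φ ∈ Sp s0 a0 e ↔ φ ∈ Sec T D e := fun e φ => by
    by_cases h : φ = 0
    · exact ⟨fun _ n => (n h).elim, fun _ => h ▸ zero_mem _⟩
    · exact (c0.sec e φ h).trans ⟨fun a _ => a, fun a => a h⟩
  have z0 : ∀ g, g ∈ A ↔ g ∈ Sp s0 a0 0 := fun g => (hA g).trans (sec 0 g).symm
  have fx : Fx T D s0 a0 A m b σ c :=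
    ⟨ack K L d k T D x e s b ρ hF hS σ c _ hr sec, c0, z0, mx, fix⟩
  obtain ⟨n, y, w, U, hw⟩ := hwk K L d k T D x e s b ρ hF hS σ c _ hr sec
  obtain ⟨i1, -, -, i4⟩ := inv K L k N T D s0 a0 A m b σ c fx
  obtain ⟨u1, u2⟩ := uni K L k N T D s0 a0 A m b σ c fx
  have yi : ∀ i, y i ∈ Ie A m s0 a0 (w i) := fun i =>
    (u2 _ _ (hw.le i (hw.mem i)) (hw.ev i)).resolve_right (hw.nu i)
  have := hw.fin
  obtain ⟨r, z, v, r1, zs, mn, le⟩ := mins K L k N T D s0 a0 A m b σ c fx n w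
    (fun i => U i ⊓ IeS z0 m (w i)) (fun i => Submodule.finiteDimensional_inf_left _ _)
    (fun i δ φ h => ⟨hw.kp i δ φ h.1, i1 _ δ φ h.2⟩) fun i φ h => h.2
  have mz := nak K L k N T D s0 a0 A m b σ c fx r z v zs (apx K k N r T D s0 a0 A m z v c0 z0 u1
    zs.ie (spk K L k N T D s0 a0 A m b σ c fx d n r y w U z v hw yi zs
      fun i => le i ⟨hw.mem i, yi i⟩))
  choose J j1 j2 using fun j => A91.units (mz _ (gen_sp s0 a0 j))
  obtain ⟨q, g, u, q1, q2, q3⟩ := hw.uns (Finset.univ.biUnion J) fun p hp =>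
    let ⟨j, _, h⟩ := Finset.mem_biUnion.1 hp; j1 j p h
  have zn : ∀ j, z j ≠ 0 := fun j h => one_ne_zero (mn (v j) {j} (fun _ => 1) (fun _ => 1)
    (Finset.subset_univ _) (fun i hi => by
      rw [Finset.mem_singleton.1 hi, sub_self]
      exact ⟨one_ne_zero, fun P _ => by simp⟩) (by simp [h]) j (Finset.mem_singleton_self j))
  obtain ⟨es, c1⟩ := sys K k N (q + r) T D s0 a0 (Fin.append g z) (Fin.append u v) c0
    (fun j => by
      induction j using Fin.addCases with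
      | left j =>
        rw [Fin.append_left, Fin.append_left]
        exact ⟨(q2 j).1, (c0.sec _ _ (q2 j).1).2 fun P p => ((q2 j).2 P p).ge⟩
      | right j =>
        rw [Fin.append_right, Fin.append_right]
        exact ⟨zn j, (zs.ie j).1⟩)
    fun j => j2 j q g u fun p hp => q3 p (Finset.mem_biUnion.2 ⟨j, Finset.mem_univ _, hp⟩)
  have e1 : Ie A m (Fin.append g z) (Fin.append u v) = Ie A m s0 a0 := funext fun e => by
    simp only [Ie, es]
  have e2 : I2 A m (Fin.append g z) (Fin.append u v) = I2 A m s0 a0 := funext fun e => by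
    simp only [Lx.K33.I2, e1]
  refine ⟨_, Fin.append g z, Fin.append u v, Finset.univ.map (Fin.natAddEmb q), ?_, c1,
    es ▸ z0, fun j => ?_, fun j hj => ?_, fun e I θ γ hI h1 h2 => ?_, ?_,
    afg K k N s0 a0 A z0, i4, fun Z f => ?_⟩
  · rw [Uni, es, e1]
    exact u1
  · induction j using Fin.addCases with
    | left j =>
      rw [Fin.append_left, Fin.append_left]
      exact fun _ => q2 j
    | right j => exact fun h => (h (Finset.mem_map.2 ⟨j, Finset.mem_univ j, rfl⟩)).elim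
  · obtain ⟨j, -, rfl⟩ := Finset.mem_map.1 hj
    rw [e1, Fin.natAddEmb_apply, Fin.append_right, Fin.append_right]
    exact zs.ie j
  · obtain ⟨I, -, rfl⟩ := Finset.subset_map_iff.1 hI
    rw [e2, Finset.sum_map] at h2
    simp only [Finset.forall_mem_map, Fin.natAddEmb_apply, Fin.append_right] at h1 h2 ⊢
    exact mn e I _ _ (Finset.subset_univ _) h1 h2
  · have := hw.cnt
    have : ∑ i, Module.finrank ℂ ↥(U i ⊓ IeS z0 m (w i)) ≤ ∑ i, Module.finrank ℂ (U i) :=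
      Finset.sum_le_sum fun i _ => Submodule.finrank_mono inf_le_left
    omega
  · obtain ⟨e', ψ, p, h⟩ := (fct K d k T D x e hF).2 Z f
    exact ⟨ψ, e', p, fun P t => (h P t).symm⟩

theorem asf : ASF := by
  intro fct cox afg sys ack hwk inv uni mins spk apx nak sep K L _ _ _ _ d k T D x e s b ρ hF hS
    N σ c A m hN hr hA mx fix
  obtain ⟨N', s', a, J, p1, p2, p3, p4, p5, p6, p7, p8, p9, p0⟩ := core fct cox afg sys ack hwk inv
    uni mins spk apx nak K L d k T D x e s b ρ hF hS N σ c A m hN hr hA mx fix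
  exact ⟨N', s', a, J, hF.ff, p7, p2, p3, p8, mx, p4, p5, p9, p0, p6,
    sep K d k N' T D x e s' a A m J hF p2 p3 mx p5 p1 p6⟩

end Vale.Agent.P283R.Sf
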