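import Vale.Agent.P283R.Sf.St

/-!
# P283R, block SF: the generators of the ring of the sections
-/

open Set

namespace Vale.Agent.P283R.Sf

open Vale.Agent.P287D Vale.Agent.P283R.Sl Vale.Agent.P283R.Cx Vale.Agent.P283R.Sg Vale.Agent.P297Z

/-- **COXR** -/
theorem coxr12 : COXR := by
  intro gg fct spa K _ _ d k N T D x e fa gen
  classical
  obtain ⟨R, -, h2, h3, -⟩ := gg K k T D
  obtain ⟨s, a, hR⟩ := h3 N gen
  have ft := (fct K d k T D x e fa).2
  let s' : Fin N → K := fun j => if s j = 0 then 1 else s j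
  let a' : Fin N → Fin k → ℤ := fun j => if s j = 0 then 0 else a j
  have eR : Algebra.adjoin ℂ (range fun j => sg (a' j) (s' j)) = R := by
    rw [← hR]
    refine le_antisymm (Algebra.adjoin_le ?_) (Algebra.adjoin_le ?_)
    · rintro _ ⟨j, rfl⟩
      by_cases z : s j = 0
      · simp only [s', a', if_pos z]
        exact one_mem _
      · simp only [s', a', if_neg z]
        exact Algebra.subset_adjoin ⟨j, rfl⟩
    · rintro _ ⟨j, rfl⟩
      by_cases z : s j = 0
      · have : sg (a j) (s j) = 0 := by rw [z]; exact AddMonoidAlgebra.single_zero _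
        simp only [this]
        exact zero_mem _
      · exact Algebra.subset_adjoin ⟨j, by simp only [s', a', if_neg z]⟩
  have sec : ∀ m φ, φ ≠ 0 → (φ ∈ Sp s' a' m ↔ ∀ P ∈ T, 0 ≤ P.ord φ + m ⬝ᵥ D P) := fun m φ φ0 => by
    rw [← spa, eR, h2]
    exact ⟨fun h => h φ0, fun h _ => h⟩
  refine ⟨s', a', fun j => ?_, sec, fa.fin, fun φ => ?_, fun m => ?_⟩
  · by_cases z : s j = 0 <;> simp [s', z]
  · by_cases φ0 : φ = 0
    · exact ⟨0, 0, zero_mem _, 1, (sec 0 1 one_ne_zero).2 (by simp), one_ne_zero, by simp [φ0]⟩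
    obtain ⟨m, ψ, ψ0, h⟩ := ft (fun P => max 0 (-P.ord φ)) ((fa.fin φ 0).subset fun P p =>
      ⟨p.1, fun z => p.2 (by rw [zero_dotProduct, add_zero] at z; simp [z])⟩)
    refine ⟨m, φ * ψ, (sec _ _ (mul_ne_zero φ0 ψ0)).2 fun P p => ?_, ψ, (sec _ _ ψ0).2 fun P p => ?_,
      ψ0, (mul_div_cancel_right₀ φ ψ0).symm⟩
    · have := h P p
      rw [Pl.ord_mul _ φ0 ψ0]
      omega
    · have := h P p
      omega
  · obtain ⟨m', ψ, ψ0, h⟩ := ft (fun P => max 0 (-(m ⬝ᵥ D P))) ((fa.fin 1 m).subset fun P p =>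
      ⟨p.1, fun z => p.2 (by rw [Pl.ord_one, zero_add] at z; simp [z])⟩)
    refine ⟨m', ψ, (sec _ _ ψ0).2 fun P p => ?_, ψ, (sec _ _ ψ0).2 fun P p => ?_, ψ0, ψ0⟩
    · have := h P p
      rw [add_dotProduct]
      omega
    · have := h P p
      omega

end Vale.Agent.P283R.Sf
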