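import Vale.Agent.P283R.Sf.St

/-!
# P283R, block SF: the prime eigenvectors degree by degree
-/

open Set

noncomputable section

namespace Vale.Agent.P283R.Sf

open Vale.Agent.P287D Vale.Agent.P297Z Vale.Agent.P283R.Sl Vale.Agent.P283R.Cx Vale.Agent.P283R.Sg

namespace H15

variable {K L : Type} [Field K] [Algebra ℂ K] [LieRing L] [LieAlgebra ℂ L] {k : ℕ}
  {ρ : L →ₗ⁅ℂ⁆ Derivation ℂ (Laurent K k) (Laurent K k)} {σ : L →ₗ⁅ℂ⁆ Derivation ℂ K K}
  {c : L → (Fin k → ℤ) → K}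

omit [Algebra ℂ K] in
theorem inj (m : Fin k → ℤ) : Function.Injective (sg m : K → Laurent K k) :=
  AddMonoidAlgebra.single_right_injective

theorem ev_iff (r : Res ρ σ c) (δ : L) (m : Fin k → ℤ) (y : K) :
    Ev (ρ δ) (sg m y) ↔ ∃ γ : ℂ, ac σ c δ m y = γ • y :=
  exists_congr fun γ => by
    rw [r.app, show γ • sg m y = sg m (γ • y) from AddMonoidAlgebra.smul_single ..]
    exact (inj m).eq_iff

theorem dot {n : ℕ} (w : Fin n → Fin k → ℤ) (ν : Fin n → ℕ) (v : Fin k → ℤ) :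
    dg w ν ⬝ᵥ v = ∑ i, ν i * (w i ⬝ᵥ v) := by
  simp only [dg, dotProduct, Finset.sum_mul, Finset.mul_sum, mul_assoc]
  exact Finset.sum_comm

end H15

open H15 in
/-- **HWKR** -/
theorem hwkr15 : HWKR := by
  intro eg _ cnt gen mod spa K L _ _ _ _ d k T D x e s b ρ f h σ c R r hR
  classical
  obtain ⟨S, U, hS, hU, hc⟩ := mod K L d k T D x e s b ρ f h
  have lf : ∀ δ m, ∀ φ ∈ Sec T D m, LF (ρ δ) (sg m φ) := fun δ m φ hφ =>
    let ⟨N, a, c, g⟩ := h.locFinite m φ hφ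
    ⟨N, c, g, a δ⟩
  let ε : Fin S.card ≃ S := S.equivFin.symm
  have hT : ∀ i, (ε i).1 ∈ T := fun i => ((hS _).1 (ε i).2).1
  let V : Fin S.card → Submodule ℂ K := fun i =>
    (U (ε i)).comap (AddMonoidAlgebra.lsingle (e (ε i)))
  let j : ∀ i, V i →ₗ[ℂ] U (ε i) := fun i =>
    (AddMonoidAlgebra.lsingle (e (ε i))).restrict fun _ a => a
  have ji : ∀ i, Function.Injective (j i) := fun i _ _ a =>
    Subtype.ext (inj _ (congrArg Subtype.val a))
  have fi : ∀ i, Module.Finite ℂ (U (ε i)) := fun i => (hU _ (ε i).2).2.1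
  refine ⟨S.card, fun i => x (ε i), fun i => e (ε i), V, fun i => (hU _ (ε i).2).1,
    fun i => f.ne _ (hT i), fun i p => ?_, fun i δ hδ => (ev_iff r ..).1 (((hS _).1 (ε i).2).2 δ hδ),
    fun i => .of_injective (j i) (ji i), fun i δ φ a => ?_, fun i φ a => ?_, ?_,
    fun m y hy y0 ev => ?_, fun J hJ => ?_⟩
  · exact one_ne_zero ((f.one _ (hT i)).symm.trans (p.2 _ (hT i)))
  · have := (hU _ (ε i).2).2.2.1 δ (sg (e (ε i)) φ) a
    rwa [r.app] at this
  · obtain ⟨ψ, p, q⟩ := (hU _ (ε i).2).2.2.2 (sg (e (ε i)) φ) a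
    exact (hR _ _).2 (inj _ q ▸ p)
  · refine le_trans (Nat.add_le_add_right ?_ _) hc
    rw [← Finset.sum_coe_sort S, ← ε.sum_comp]
    exact Finset.sum_le_sum fun i _ => LinearMap.finrank_le_finrank_of_injective (ji i)
  · have a := (hR _ _).1 hy
    have key : ∀ P ∈ T, P ∉ S → P.ord y + m ⬝ᵥ D P = 0 := fun P p n => by
      refine by_contra fun q => n ((hS P).2 ⟨p, fun δ hδ => ?_⟩)
      have x0 := f.ne P p
      have w : sg (e P) (x P) * sg (m - e P) (y / x P) = sg m y := by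
        rw [AddMonoidAlgebra.single_mul_single, add_sub_cancel, mul_div_cancel₀ _ x0]
      refine eg _ (ρ δ) _ _ (lf δ _ _ fun _ Q g => ?_) (lf δ (m - e P) (y / x P) fun _ Q g => ?_)
        (w ▸ AddMonoidAlgebra.single_ne_zero.2 y0) (w ▸ (ev_iff r ..).2 (ev δ hδ))
      · by_cases z : Q = P
        · rw [z, f.one P p]; exact zero_le_one
        · exact (f.zero P p Q g z).ge
      · have := a y0 Q g
        rw [Pl.ord_div _ y0 x0, sub_dotProduct]
        by_cases z : Q = P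
        · have := f.one P p
          subst z
          omega
        · have := f.zero P p Q g z
          omega
    let ν : Fin S.card → ℕ := fun i => ((ε i).1.ord y + m ⬝ᵥ D (ε i)).toNat
    have n0 : ∀ i ∈ Finset.univ, x (ε i) ^ ν i ≠ 0 := fun i _ => pow_ne_zero _ (f.ne _ (hT i))
    have p0 := Finset.prod_ne_zero_iff.2 n0
    refine ⟨ν, y / ∏ i, x (ε i) ^ ν i, ⟨div_ne_zero y0 p0, fun Q g => ?_⟩,
      (mul_div_cancel₀ _ p0).symm⟩
    have e1 : ∑ i, Q.ord (x (ε i) ^ ν i) + ∑ i, ν i * (e (ε i) ⬝ᵥ D Q) = Q.ord y + m ⬝ᵥ D Q := by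
      rw [← Finset.sum_add_distrib]
      simp only [Pl.ord_pow, ← mul_add]
      by_cases z : Q ∈ S
      · obtain ⟨i, hi⟩ := ε.surjective ⟨Q, z⟩
        obtain rfl : (ε i).1 = Q := congrArg Subtype.val hi
        rw [Finset.sum_eq_single i (fun l _ n => by
          rw [f.zero _ (hT l) _ g fun q => n (ε.injective (Subtype.ext q.symm)), mul_zero])
          (by simp), f.one _ g, mul_one]
        exact Int.toNat_of_nonneg (a y0 _ g)
      · rw [key Q g z]
        exact Finset.sum_eq_zero fun l _ => by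
          rw [f.zero _ (hT l) _ g fun q => z (q ▸ (ε l).2), mul_zero]
    rw [Pl.ord_div _ y0 p0, Q.ord_prod _ n0, sub_dotProduct, dot]
    omega
  · obtain ⟨n, g, g1, g2, g3⟩ := cnt K L d k T D x e s b ρ f h S J (fun P p => (hS P).1 p)
      (gen K L d k T D x e s b ρ f h).1 hJ
    exact ⟨n, fun i => (g i).2, fun i => (g i).1, g1, g2, fun p a => (spa K k n _ _ _ _).1 (g3 p a)⟩

end Vale.Agent.P283R.Sf
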