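import Vale.Agent.P283R.Sf.St

/-!
# P283R, block SF: the ideal of the orbit and its powers are invariant
-/

open Set

noncomputable section

namespace Vale.Agent.P283R.Sf

open Vale.Agent.P287D Vale.Agent.P283R.Cx
open Vale.Agent.P283R.Lx (Nz Ie)
open Vale.Agent.P283R.Lx.K33 (I2 Pw)
open Vale.Agent.P283R.Lx.O15

namespace I4

variable {K L : Type} [Field K] [Algebra ℂ K] [LieRing L] [LieAlgebra ℂ L] {k : ℕ}

/-- the action as a linear map -/
def acl (σ : L →ₗ⁅ℂ⁆ Derivation ℂ K K) (c : L → (Fin k → ℤ) → K) (δ : L) (e : Fin k → ℤ) :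
    K →ₗ[ℂ] K := (σ δ).toLinearMap + LinearMap.mulLeft ℂ (c δ e)

theorem kp_span {σ : L →ₗ⁅ℂ⁆ Derivation ℂ K K} {c : L → (Fin k → ℤ) → K} {e : Fin k → ℤ}
    {S : Set K} (h : ∀ δ, ∀ φ ∈ S, ac σ c δ e φ ∈ Submodule.span ℂ S) :
    Kp σ c e (Submodule.span ℂ S) := fun δ _ hφ =>
  (Submodule.span_le (p := (Submodule.span ℂ S).comap (acl σ c δ e))).2 (h δ) hφ

end I4

open I4 in
/-- **INVR** -/
theorem invr4 : INVR := by
  intro mul K L _ _ _ _ k N T D s a A m b σ c X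
  obtain ⟨lb, z0, -⟩ := mul K L k T D _ b σ c X.act
  have lb' : ∀ δ e e1 φ ψ, ac σ c δ e (φ * ψ) =
      ac σ c δ e1 φ * ψ + φ * ac σ c δ (e - e1) ψ := fun δ e e1 φ ψ => by
    rw [← lb, add_sub_cancel]
  have ie : ∀ e δ, ∀ φ ∈ Ie A m s a e, ac σ c δ e φ ∈ Ie A m s a e := fun e δ φ h =>
    ⟨X.act.kp e δ φ h.1, fun ψ hψ => by
      have q := X.act.kp _ δ ψ hψ
      have a1 := mem0 X.zero h.1 hψ
      have a2 := mem0 X.zero h.1 q
      have a3 := mem0 X.zero (X.act.kp e δ φ h.1) hψ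
      have e1 := lb δ e (-e) φ ψ
      rw [add_neg_cancel, z0] at e1
      have b1 := X.fix δ _ a1
      rw [e1] at b1
      have := sub_mem ((not_nz (add_mem a3 a2)).1 b1) ((not_nz a2).1 (h.2 _ q))
      exact (not_nz a3).2 (by convert this using 1; ext; simp)⟩
  refine ⟨ie, fun e => kp_span ?_, fun i => ?_, fun θ h => X.act.con θ fun δ _ => ?_⟩
  · rintro δ _ ⟨e1, x, hx, y, hy, rfl⟩
    rw [lb' δ e e1]
    exact add_mem (Submodule.subset_span ⟨e1, _, ie _ δ x hx, y, hy, rfl⟩)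
      (Submodule.subset_span ⟨e1, x, hx, _, ie _ δ y hy, rfl⟩)
  · induction i with
    | zero => exact X.act.kp
    | succ i ih =>
      refine fun e => kp_span ?_
      rintro δ _ ⟨e1, x, hx, y, hy, rfl⟩
      rw [lb' δ e e1]
      exact add_mem (Submodule.subset_span ⟨e1, _, ie _ δ x hx, y, hy, rfl⟩)
        (Submodule.subset_span ⟨e1, x, hx, _, ih _ δ y hy, rfl⟩)
  · obtain ⟨γ, e⟩ := X.act.un 0 θ h δ
    rw [z0] at e
    have a1 : θ ∈ A := (X.zero _).2 ((X.cox.sec _ _ h.1).2 fun P p => (h.2 P p).ge)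
    have a2 : θ⁻¹ ∈ A := (X.zero _).2 ((X.cox.sec _ _ (inv_ne_zero h.1)).2 fun P p => by
      have := h.2 P p
      rw [zero_dotProduct] at this ⊢
      rw [P.ord_inv]
      omega)
    by_contra n
    have g0 : γ ≠ 0 := fun z => n (by rw [e, z, zero_smul])
    have b1 := X.fix δ θ a1
    rw [e] at b1
    have := m.mul_mem_left ⟨_, A.smul_mem a2 γ⁻¹⟩ ((not_nz (A.smul_mem a1 γ)).1 b1)
    refine X.max.ne_top ((Ideal.eq_top_iff_one _).2 ?_)
    convert this using 1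
    ext
    simp [g0, h.1]

end Vale.Agent.P283R.Sf
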