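import Vale.Agent.P283R.Sf.St

/-!
# P283R, block SF: the theorem of Krull
-/

open Set

noncomputable section

namespace Vale.Agent.P283R.Sf

open Vale.Agent.P287D Vale.Agent.P283R.Sl Vale.Agent.P283R.Cx Vale.Agent.P283R.Sg
open Vale.Agent.P283R.Lx (Nz Ie)
open Vale.Agent.P283R.Lx.K33 (Pw IeS pw_sp)

namespace K3

variable {K : Type} [Field K] [Algebra ℂ K] {k N : ℕ} {s : Fin N → K} {a : Fin N → Fin k → ℤ}
  {A : Subalgebra ℂ K} {e : Fin k → ℤ} {φ : K}

theorem sg_co {J : (Fin k → ℤ) → Submodule ℂ K} (h : φ ∈ J e) (n : Fin k → ℤ) :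
    (sg e φ).coeff n ∈ J n := by
  by_cases c : e = n
  · subst c
    simpa using h
  · simp [c]

/-- the Laurent polynomials whose coefficients are sections -/
def rg (s : Fin N → K) (a : Fin N → Fin k → ℤ) : Subalgebra ℂ (Laurent K k) where
  carrier := {F | ∀ n, F.coeff n ∈ Sp s a n}
  add_mem' {F G} hF hG n := by simpa using add_mem (hF n) (hG n)
  mul_mem' {F G} hF hG n := by
    rw [AddMonoidAlgebra.coeff_mul_apply_left]
    exact Submodule.sum_mem _ fun l _ => by simpa using sp_mul (hF l) (hG (-l + n))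
  algebraMap_mem' c := sg_co (e := 0) (φ := algebraMap ℂ K c) (by
    rw [Algebra.algebraMap_eq_smul_one]
    exact Submodule.smul_mem _ _ (Lx.O15.one_sp s a))

/-- the algebra of the generators -/
abbrev Bg (s : Fin N → K) (a : Fin N → Fin k → ℤ) : Subalgebra ℂ (Laurent K k) :=
  Algebra.adjoin ℂ (range fun j => sg (a j) (s j))

theorem bg_le : Bg s a ≤ rg s a :=
  Algebra.adjoin_le (range_subset_iff.2 fun j => sg_co (Lx.G3.gen_sp s a j))

/-- the ideal of the orbit -/
def idl (hz : ∀ x, x ∈ A ↔ x ∈ Sp s a 0) (m : Ideal A) : Ideal (Bg s a) where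
  carrier := {F | ∀ n, F.1.coeff n ∈ IeS hz m n}
  add_mem' {F G} hF hG n := by simpa using add_mem (hF n) (hG n)
  zero_mem' n := by simp
  smul_mem' G F hF n := by
    rw [smul_eq_mul, mul_comm, Subalgebra.coe_mul, AddMonoidAlgebra.coeff_mul_apply_left]
    exact Submodule.sum_mem _ fun l _ => by
      have : F.1.coeff l * G.1.coeff (-l + n) ∈ IeS hz m (l + (-l + n)) :=
        Lx.O15.ie_mul (hF l) (bg_le G.2 _)
      simpa using this

end K3

open K3 in
theorem krur3 : KRUR := fun spa K _ _ k N s a A m hz hm e φ h => by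
  have sp : ∀ {e φ}, φ ∈ Sp s a e → sg e φ ∈ Bg s a := fun x => (spa K k N s a _ _).2 x
  have : IsNoetherianRing (Bg s a) :=
    isNoetherianRing_of_fg (Subalgebra.fg_def.2 ⟨_, finite_range _, rfl⟩)
  have ne : idl hz m ≠ ⊤ := fun c => by
    have o : (1 : K) ∈ Ie A m s a 0 := by
      simpa [IeS] using ((Ideal.eq_top_iff_one _).1 c) 0
    exact o.2 1 (by simpa using Lx.O15.one_sp s a)
      (by rw [one_mul]; exact ⟨one_mem A, (Ideal.ne_top_iff_one m).1 hm⟩)
  have key : ∀ i e φ (h : φ ∈ Pw A m s a i e),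
      (⟨sg e φ, sp (pw_sp i e h)⟩ : Bg s a) ∈ idl hz m ^ i := by
    intro i
    induction i with
    | zero => simp
    | succ i ih =>
      intro e φ h
      induction h using Submodule.span_induction with
      | mem z hz' =>
        obtain ⟨e1, x, hx, y, hy, rfl⟩ := hz'
        have := Ideal.mul_mem_mul (I := idl hz m) (r := ⟨sg e1 x, sp hx.1⟩)
          (sg_co (J := IeS hz m) hx) (ih _ y hy)
        rw [← pow_succ'] at this
        convert this using 1
        exact Subtype.ext (by simp [AddMonoidAlgebra.single_mul_single])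
      | zero =>
        convert (idl hz m ^ (i + 1)).zero_mem using 1
        exact Subtype.ext (by simp)
      | add x y _ _ a b => convert add_mem a b using 1; exact Subtype.ext (by simp)
      | smul c x _ a =>
        convert Submodule.smul_of_tower_mem _ c a using 1
        exact Subtype.ext (by simp)
  have z : (⟨sg e φ, sp (h 0)⟩ : Bg s a) ∈ ⨅ i : ℕ, idl hz m ^ i :=
    Ideal.mem_iInf.2 fun i => key i e φ (h i)
  rw [Ideal.iInf_pow_eq_bot_of_isDomain _ ne, Ideal.mem_bot] at z
  simpa using congrArg (fun F : Bg s a => F.1.coeff e) z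

end Vale.Agent.P283R.Sf
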