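import Vale.Agent.P283R.Sf.St

/-!
# P283R, block SF: a minimal invariant system
-/

open Set

noncomputable section

namespace Vale.Agent.P283R.Sf

open Vale.Agent.P287D Vale.Agent.P283R.Cx Vale.Agent.P297Z
open Vale.Agent.P283R.Lx (Nz Ie)
open Vale.Agent.P283R.Lx.K33 (I2 span_mul)

namespace M55

variable {K L : Type} [Field K] [Algebra ℂ K] [LieRing L] [LieAlgebra ℂ L] {k N r r' : ℕ}
  {T : Set (Pl K)} {D : Pl K → Fin k → ℤ} {s : Fin N → K} {a : Fin N → Fin k → ℤ}
  {A : Subalgebra ℂ K} {m : Ideal A} {σ : L →ₗ⁅ℂ⁆ Derivation ℂ K K} {c : L → (Fin k → ℤ) → K}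
  {z : Fin r → K} {v : Fin r → Fin k → ℤ} {e e' : Fin k → ℤ} {θ θ' : K}

/-- the action as a linear map -/
def al (σ : L →ₗ⁅ℂ⁆ Derivation ℂ K K) (c : L → (Fin k → ℤ) → K) (δ : L) (e : Fin k → ℤ) :
    K →ₗ[ℂ] K := (σ δ).toLinearMap + LinearMap.mulLeft ℂ (c δ e)

/-- independence -/
def Mi (T : Set (Pl K)) (D : Pl K → Fin k → ℤ) (s : Fin N → K) (a : Fin N → Fin k → ℤ)
    (A : Subalgebra ℂ K) (m : Ideal A) (z : Fin r → K) (v : Fin r → Fin k → ℤ) : Prop :=
  ∀ (e : Fin k → ℤ) (θ : Fin r → K) (γ : Fin r → ℂ), (∀ j, γ j ≠ 0 → Tq.Pr T D (e - v j) (θ j)) →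
    ∑ j, γ j • (z j * θ j) ∈ I2 A m s a e → ∀ j, γ j = 0

theorem Mi.mn (h : Mi T D s a A m z v) : Mn T D s a A m z v Finset.univ := by
  classical
  intro e I θ γ _ h1 h2 j hj
  have := h e θ (fun j => if j ∈ I then γ j else 0)
    (fun j c => h1 j (by_contra fun n => c (if_neg n))) (by simpa [ite_smul] using h2) j
  rwa [if_pos hj] at this

theorem pr_div (h : Tq.Pr T D e θ) (h' : Tq.Pr T D e' θ') : Tq.Pr T D (e - e') (θ / θ') :=
  ⟨div_ne_zero h.1 h'.1, fun P p => by
    have := h.2 P p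
    have := h'.2 P p
    rw [Pl.ord_div _ h.1 h'.1, sub_dotProduct]
    omega⟩

theorem i2_div (x : Cox T D s a) {y : K} (hy : y ∈ I2 A m s a e)
    (h : Tq.Pr T D e' θ) : y * θ⁻¹ ∈ I2 A m s a (e - e') := by
  have i : θ⁻¹ ∈ Sp s a (-e') := (x.sec _ _ (inv_ne_zero h.1)).2 fun P p => by
    have := h.2 P p
    rw [Pl.ord_inv, neg_dotProduct]
    omega
  refine span_mul ?_ hy
  rintro _ ⟨e1, u, hu, w, hw, rfl⟩
  refine Submodule.subset_span ⟨e1, u, hu, w * θ⁻¹, ?_, mul_assoc _ _ _⟩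
  rw [show e - e' - e1 = e - e1 + -e' by ring]
  exact Lx.O15.ie_mul hw i

theorem kp_sz (mul : ∀ δ e e' φ ψ, ac σ c δ (e + e') (φ * ψ) = ac σ c δ e φ * ψ + φ * ac σ c δ e' ψ)
    (un : ∀ e θ, Tq.Pr T D e θ → ∀ δ, ∃ γ : ℂ, ac σ c δ e θ = γ • θ)
    (i2 : ∀ e, Kp σ c e (I2 A m s a e)) (h : Zs s a A m σ c z v) (e : Fin k → ℤ) :
    Kp σ c e (Sz T D s a A m z v e) := fun δ φ hφ => by
  refine (sup_le (Submodule.span_le.2 ?_) fun y hy => Submodule.mem_sup_right (i2 e δ y hy) :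
    Sz T D s a A m z v e ≤ (Sz T D s a A m z v e).comap (al σ c δ e)) hφ
  rintro _ ⟨j, θ, p, rfl⟩
  obtain ⟨γ, hγ⟩ := un _ _ p δ
  have := mul δ (v j) (e - v j) (z j) θ
  rw [add_sub_cancel, hγ, mul_smul_comm] at this
  change ac σ c δ e (z j * θ) ∈ Sz T D s a A m z v e
  rw [this]
  refine Submodule.mem_sup_left (add_mem (span_mul ?_ (h.inv δ j))
    (Submodule.smul_mem _ _ (Submodule.subset_span ⟨j, θ, p, rfl⟩)))
  rintro _ ⟨i, hi, rfl⟩
  exact Submodule.subset_span ⟨i, θ, (show v i = v j from hi) ▸ p, rfl⟩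

theorem sz_le (y : Fin r' → K) (u : Fin r' → Fin k → ℤ) (e : Fin k → ℤ) :
    Sz T D s a A m z v e ≤ Sz T D s a A m (Fin.append z y) (Fin.append v u) e :=
  sup_le_sup_right (Submodule.span_mono (by
    rintro _ ⟨j, θ, p, q⟩
    exact ⟨Fin.castAdd r' j, θ, by simpa using p, by simpa using q⟩)) _

theorem mi_step (x : Cox T D s a)
    (cst : ∀ θ, Tq.Pr T D 0 θ → θ ∈ range (algebraMap ℂ K)) (h : Mi T D s a A m z v)
    {y : Fin r' → K} (li : LinearIndependent ℂ y) {w : Fin k → ℤ}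
    (dj : Disjoint (Submodule.span ℂ (range y)) (Sz T D s a A m z v w)) :
    Mi T D s a A m (Fin.append z y) (Fin.append v fun _ => w) := by
  intro e θ γ h1 h2
  rw [Fin.sum_univ_add] at h2
  simp only [Fin.append_left, Fin.append_right] at h2
  have p1 : ∀ j, γ (Fin.castAdd r' j) ≠ 0 → Tq.Pr T D (e - v j) (θ (Fin.castAdd r' j)) :=
    fun j c => by simpa using h1 _ c
  have p2 : ∀ j, γ (Fin.natAdd r j) ≠ 0 → Tq.Pr T D (e - w) (θ (Fin.natAdd r j)) :=
    fun j c => by simpa using h1 _ c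
  have key : ∀ j, γ (Fin.natAdd r j) = 0 := fun j₀ => by
    by_contra c
    have q := p2 j₀ c
    have : ∀ j, ∃ u : ℂ, u ≠ 0 ∧ γ (Fin.natAdd r j) • (y j * θ (Fin.natAdd r j)) *
        (θ (Fin.natAdd r j₀))⁻¹ = (γ (Fin.natAdd r j) * u) • y j := fun j => by
      by_cases c' : γ (Fin.natAdd r j) = 0
      · exact ⟨1, one_ne_zero, by simp [c']⟩
      have q' := pr_div (p2 j c') q
      rw [sub_self] at q'
      obtain ⟨u, hu⟩ := cst _ q'
      refine ⟨u, fun u0 => q'.1 (by rw [← hu, u0, map_zero]), ?_⟩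
      rw [smul_mul_assoc, mul_assoc, ← div_eq_mul_inv, ← hu, mul_smul, mul_comm,
        ← Algebra.smul_def]
    choose u u0 hu using this
    have h3 := i2_div x h2 q
    rw [sub_sub_cancel, add_mul, Finset.sum_mul, Finset.sum_mul,
      Finset.sum_congr rfl fun j _ => hu j] at h3
    have h4 : ∑ j, γ (Fin.castAdd r' j) • (z j * θ (Fin.castAdd r' j)) * (θ (Fin.natAdd r j₀))⁻¹ ∈
        Sz T D s a A m z v w := Submodule.sum_mem _ fun j _ => by
      by_cases c' : γ (Fin.castAdd r' j) = 0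
      · simp [c']
      have q' := pr_div (p1 j c') q
      rw [sub_sub_sub_cancel_left] at q'
      rw [smul_mul_assoc, mul_assoc, ← div_eq_mul_inv]
      exact Submodule.smul_mem _ _
        (Submodule.mem_sup_left (Submodule.subset_span ⟨j, _, q', rfl⟩))
    have h5 := Submodule.disjoint_def.1 dj _
      (Submodule.sum_mem _ fun j _ => Submodule.smul_mem _ _ (Submodule.subset_span ⟨j, rfl⟩))
      ((Submodule.add_mem_iff_right _ h4).1 (Submodule.mem_sup_right h3))
    exact mul_ne_zero c (u0 j₀) (Fintype.linearIndependent_iff.1 li _ h5 j₀)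
  simp only [key, zero_smul, Finset.sum_const_zero, add_zero] at h2
  intro j
  induction j using Fin.addCases with
  | left j => exact h e _ _ p1 h2 j
  | right j => exact key j

end M55

open M55 in
/-- **MINSR** -/
theorem minsr55 : MINSR := by
  intro mul inv K L _ _ _ _ k N T D s a A m b σ c F n
  obtain ⟨-, i2, -, cst⟩ := inv K L k N T D s a A m b σ c F
  have mu := (mul K L k T D _ b σ c F.act).1
  suffices H : ∀ (w : Fin n → Fin k → ℤ) (U : Fin n → Submodule ℂ K),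
      (∀ i, Module.Finite ℂ (U i)) → (∀ i, Kp σ c (w i) (U i)) →
      (∀ i, ∀ φ ∈ U i, φ ∈ Ie A m s a (w i)) → ∃ (r : ℕ) (z : Fin r → K) (v : Fin r → Fin k → ℤ),
        r ≤ ∑ i, Module.finrank ℂ (U i) ∧ Zs s a A m σ c z v ∧ Mi T D s a A m z v ∧
        ∀ i, U i ≤ Sz T D s a A m z v (w i) from fun w U h1 h2 h3 =>
    let ⟨r, z, v, k1, k2, k3, k4⟩ := H w U h1 h2 h3
    ⟨r, z, v, k1, k2, k3.mn, k4⟩
  induction n with
  | zero => exact fun w U _ _ _ => ⟨0, Fin.elim0, Fin.elim0, Nat.zero_le _,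
      ⟨fun j => j.elim0, fun _ j => j.elim0⟩, fun _ _ _ _ _ j => j.elim0, fun j => j.elim0⟩
  | succ n ih =>
    intro w U h1 h2 h3
    obtain ⟨r, z, v, k1, k2, k3, k4⟩ := ih (fun i => w i.succ) (fun i => U i.succ)
      (fun i => h1 _) (fun i => h2 _) fun i => h3 _
    have kp := kp_sz mu F.act.un i2 k2 (T := T) (D := D) (w 0)
    obtain ⟨M, m1, m2, m3⟩ := F.act.cr (w 0) (U 0 ⊓ Sz T D s a A m z v (w 0)) (U 0)
      (fun δ φ h => ⟨h2 0 δ φ h.1, kp δ φ h.2⟩) (h2 0) inf_le_left fun φ h => (h3 0 φ h).1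
    have le : M ≤ U 0 := m3 ▸ le_sup_right
    have := h1 0
    have : Module.Finite ℂ M := Module.Finite.of_injective _ (Submodule.inclusion_injective le)
    let β := Module.finBasis ℂ M
    have sp : Submodule.span ℂ (range fun j => (β j : K)) = M := by
      rw [show (range fun j => (β j : K)) = M.subtype '' range β from range_comp _ _,
        ← Submodule.map_span, β.span_eq, Submodule.map_subtype_top]
    refine ⟨_, Fin.append z fun j => (β j : K), Fin.append v fun _ => w 0, ?_, ⟨fun j => ?_,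
      fun δ j => ?_⟩, mi_step F.cox cst k3 (β.linearIndependent.map' _ M.ker_subtype) ?_,
      fun i => ?_⟩
    · rw [Fin.sum_univ_succ]
      have := Submodule.finrank_mono le
      omega
    · induction j using Fin.addCases with
      | left j => simpa using k2.ie j
      | right j => simpa using h3 0 _ (le (β j).2)
    · induction j using Fin.addCases with
      | left j =>
        simp only [Fin.append_left]
        refine Submodule.span_mono ?_ (k2.inv δ j)
        rintro _ ⟨i, hi, rfl⟩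
        exact ⟨Fin.castAdd _ i, by simpa using hi, by simp⟩
      | right j =>
        simp only [Fin.append_right]
        refine Submodule.span_mono ?_ (sp.ge (m1 δ _ (β j).2))
        rintro _ ⟨i, rfl⟩
        exact ⟨Fin.natAdd _ i, by simp, by simp⟩
    · exact Submodule.disjoint_def.2 fun y h h' =>
        Submodule.disjoint_def.1 m2 y ⟨le (sp.le h), h'⟩ (sp.le h)
    · induction i using Fin.cases with
      | succ i => exact (k4 i).trans (sz_le _ _ _)
      | zero =>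
        refine m3.ge.trans (sup_le (inf_le_right.trans (sz_le _ _ _)) (sp.ge.trans ?_))
        refine le_sup_of_le_left (Submodule.span_mono ?_)
        rintro _ ⟨i, rfl⟩
        exact ⟨Fin.natAdd _ i, 1, ⟨one_ne_zero, fun P _ => by simp [Pl.ord_one]⟩, by simp⟩

end Vale.Agent.P283R.Sf
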