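import Vale.Agent.P283R.Sf.St
import Vale.Agent.P283R.Tq.Spn35

/-!
# P283R, block SF: the monomials generate
-/

open Set

noncomputable section

namespace Vale.Agent.P283R.Sf

open Vale.Agent.P287D Vale.Agent.P283R.Cx
open Vale.Agent.P283R.Lx.K33 (Pw pw_sp span_mul)
open Vale.Agent.P283R.Tq.S35 (pr_one pr_mul dg_eq)

namespace N56

variable {K L : Type} [Field K] [Algebra ℂ K] [LieRing L] [LieAlgebra ℂ L] {k n : ℕ}
  {T : Set (Pl K)} {D : Pl K → Fin k → ℤ} {z : Fin n → K} {w : Fin n → Fin k → ℤ}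
  {e e' : Fin k → ℤ} {x y : K}

/-- the action as a linear map -/
def acL (σ : L →ₗ⁅ℂ⁆ Derivation ℂ K K) (c : L → (Fin k → ℤ) → K) (δ : L) (e : Fin k → ℤ) :
    K →ₗ[ℂ] K := (σ δ : K →ₗ[ℂ] K) + LinearMap.mulLeft ℂ (c δ e)

theorem mz_mul (hx : x ∈ Mz T D z w e) (hy : y ∈ Mz T D z w e') : x * y ∈ Mz T D z w (e + e') := by
  refine span_mul ?_ hx
  rintro _ ⟨β, θ, h, rfl⟩
  rw [mul_comm]
  refine span_mul ?_ hy
  rintro _ ⟨β', θ', h', rfl⟩
  refine Submodule.subset_span ⟨β + β', θ * θ', ?_, ?_⟩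
  · have : e + e' - dg w (β + β') = e - dg w β + (e' - dg w β') := by
      simp only [dg_eq, Pi.add_apply, Nat.cast_add, add_smul, Finset.sum_add_distrib]
      ring
    exact this ▸ pr_mul h h'
  · simp only [Pi.add_apply, pow_add, Finset.prod_mul_distrib]
    ring

theorem mz_pr (h : Tq.Pr T D e x) : x ∈ Mz T D z w e :=
  Submodule.subset_span ⟨0, x, by simpa [dg_eq] using h, by simp⟩

theorem mz_z (j : Fin n) : z j ∈ Mz T D z w (w j) :=
  Submodule.subset_span ⟨Pi.single j 1, 1, by simpa [dg_eq, Pi.single_apply] using pr_one,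
    by simp [Pi.single_apply, pow_ite]⟩

end N56

open N56 in
theorem nakgr56 : NAKGR := by
  intro mul inv kru K L _ _ _ _ k N T D s a A m b σ c F r z v Z H e
  obtain ⟨lb, -, one⟩ := mul K L k T D _ b σ c F.act
  obtain ⟨-, -, pw, -⟩ := inv K L k N T D s a A m b σ c F
  let P : (Fin k → ℤ) → K → Prop := fun e y => y ∈ Mz T D z v e ∧ ∀ δ, ac σ c δ e y ∈ Mz T D z v e
  have pm : ∀ e e' x y, P e x → P e' y → P (e + e') (x * y) := fun e e' x y hx hy =>
    ⟨mz_mul hx.1 hy.1, fun δ => by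
      rw [lb]
      exact add_mem (mz_mul (hx.2 δ) hy.1) (mz_mul hx.1 (hy.2 δ))⟩
  have pu : ∀ e θ, Tq.Pr T D e θ → P e θ := fun e θ h => ⟨mz_pr h, fun δ => by
    obtain ⟨γ, hγ⟩ := F.act.un e θ h δ
    exact hγ ▸ Submodule.smul_mem _ _ (mz_pr h)⟩
  have pz : ∀ j, P (v j) (z j) := fun j => ⟨mz_z j, fun δ => by
    refine Submodule.span_le.2 ?_ (Z.inv δ j)
    rintro _ ⟨i, hi, rfl⟩
    exact (show v i = v j from hi) ▸ mz_z i⟩
  have pp : ∀ j (l : ℕ), P ((l : ℤ) • v j) (z j ^ l) := fun j l => by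
    induction l with
    | zero => simpa using pu 0 1 pr_one
    | succ l ih => simpa [add_smul, pow_succ] using pm _ _ _ _ ih (pz j)
  have pr : ∀ (β : Fin r → ℕ) (I : Finset (Fin r)),
      P (∑ j ∈ I, (β j : ℤ) • v j) (∏ j ∈ I, z j ^ β j) := fun β I => by
    induction I using Finset.induction_on with
    | empty => simpa using pu 0 1 pr_one
    | insert j I hj ih =>
      rw [Finset.sum_insert hj, Finset.prod_insert hj]
      exact pm _ _ _ _ (pp j _) ih
  have kp : Kp σ c e (Mz T D z v e) := fun δ φ hφ => by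
    refine (Submodule.span_le (p := (Mz T D z v e).comap (acL σ c δ e))).2 ?_ hφ
    rintro _ ⟨β, θ, h, rfl⟩
    have := (pm _ _ _ _ (pr β Finset.univ) (pu _ _ h)).2 δ
    rwa [← dg_eq, add_sub_cancel] at this
  obtain ⟨M, kM, dj, eM⟩ := F.act.cr e _ _ kp (F.act.kp e) (H e).1 le_rfl
  by_cases M0 : M = ⊥
  · rw [← eM, M0, sup_bot_eq]
  have leM : M ≤ Sp s a e := eM ▸ le_sup_right
  obtain ⟨y, hy, y0, ev⟩ := F.act.ev e M kM leM M0
  refine (y0 (kru K k N s a A m F.zero F.max.ne_top e y fun i => ?_)).elim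
  obtain ⟨C, kC, dC, eC⟩ := F.act.cr e (Mz T D z v e ⊓ Pw A m s a i e) _
    (fun δ φ h => ⟨kp δ φ h.1, pw i e δ φ h.2⟩) (pw i e) inf_le_right (pw_sp i e)
  have leC : C ≤ Pw A m s a i e := eC ▸ le_sup_right
  have : y ∈ Mz T D z v e ⊔ C := by
    have le : Pw A m s a i e ≤ Mz T D z v e ⊔ C := by
      rw [← eC]
      exact sup_le_sup_right inf_le_left C
    exact (sup_le le_sup_left le : Mz T D z v e ⊔ Pw A m s a i e ≤ _) ((H e).2 i (leM hy))
  obtain ⟨p, hp, q, hq, rfl⟩ := Submodule.mem_sup.1 this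
  obtain ⟨γ, hγ⟩ := one e (p + q) q y0 fun δ hδ => by
    obtain ⟨γ, hγ⟩ := ev δ hδ
    refine ⟨γ, hγ, sub_eq_zero.1 ?_⟩
    have h1 : ac σ c δ e q - γ • q ∈ C := sub_mem (kC δ q hq) (C.smul_mem γ hq)
    have h2 : ac σ c δ e q - γ • q = γ • p - ac σ c δ e p := by
      have : ac σ c δ e p + ac σ c δ e q = γ • p + γ • q :=
        ((acL σ c δ e).map_add p q).symm.trans (hγ.trans (smul_add γ p q))
      linear_combination this
    exact Submodule.disjoint_def.1 dC _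
      ⟨h2 ▸ sub_mem (Submodule.smul_mem _ γ hp) (kp δ p hp), leC h1⟩ h1
  have p0 : p = 0 := Submodule.disjoint_def.1 dj p hp (by
    have := sub_mem hy (M.smul_mem γ hy)
    rwa [← hγ, add_sub_cancel_right] at this)
  rw [p0, zero_add]
  exact leC hq

end Vale.Agent.P283R.Sf
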