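import Vale.Agent.P283R.Sf.St

/-!
# P283R, block SF: the row PT
-/

open Set

namespace Vale.Agent.P283R.Sf

theorem pt14 : PT := fun K L _ _ _ _ _ _ _ R b σ c h g hg => by
  have c0 : ∀ δ φ, ac σ c δ 0 φ = σ δ φ := fun δ φ => by
    have := h.add δ 0 0
    rw [add_zero, left_eq_add] at this
    rw [ac, this, zero_mul, add_zero]
  have le : Submodule.span ℂ {y | ∃ δ, ∃ x ∈ R 0, y = σ δ x} ≤ R 0 := Submodule.span_le.2 (by
    rintro _ ⟨δ, x, hx, rfl⟩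
    exact c0 δ x ▸ h.kp 0 δ x hx)
  obtain ⟨M, k, d, e⟩ := h.cr 0 _ (R 0)
    (fun δ φ a => (c0 δ φ).symm ▸ Submodule.subset_span ⟨δ, φ, le a, rfl⟩) (h.kp 0) le le_rfl
  obtain ⟨w, hw, m, hm, rfl⟩ := Submodule.mem_sup.1 (e.ge hg)
  obtain ⟨γ, rfl⟩ := h.con m fun δ _ => Submodule.disjoint_def.1 d _
    (Submodule.subset_span ⟨δ, m, e.le (Submodule.mem_sup_right hm), rfl⟩) (c0 δ m ▸ k δ m hm)
  exact ⟨γ, by rwa [add_sub_cancel_right]⟩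

end Vale.Agent.P283R.Sf
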