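import Vale.Agent.P283R.Sf.St
import Vale.Agent.P283R.Tq.Sep84

/-!
# P283R, block SF: the row SEPR
-/

namespace Vale.Agent.P283R.Sf

/-- **SEPR** -/
theorem sepr84 : SEPR := fun ft K _ _ d k _ T D x e _ _ _ _ _ fc cox hz hm ie uni min =>
  Tq.sepU cox hz hm uni ie (fun Z h =>
    let ⟨m, ψ, h0, h1⟩ := (ft K d k T D x e fc).2 Z h
    ⟨ψ, m, h0, fun P t => (h1 P t).symm⟩) min

end Vale.Agent.P283R.Sf
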