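import Vale.Agent.P283R.Sf.St
import Vale.Agent.P283R.Sg.Gen19
import Vale.Agent.P283R.Tq.Torf20

/-!
# P283R, block SF: from the tier to the schemes
-/

open Set CategoryTheory AlgebraicGeometry

noncomputable section

namespace Vale.Agent.P283R.Sf

namespace S20

open Vale.Agent.P289 (Pt DForm)
open Vale.Agent.P287D Vale.Agent.P297Z
open Vale.Agent.P283M.Stm Vale.Agent.P283M.Stm.Var Vale.Agent.P283M Vale.Agent.P283M.Br
open Vale.Agent.P283R.Gl Vale.Agent.P283R.Sg.T20 Vale.Agent.P283R.Tq.T20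

variable {X : Var} {n k : ℕ} {W : X.X.Opens} {x : Pt X.X} {g a : X.K} {γ : ℂ}

theorem form (hK : FF X.K (n + 1)) : ∃ (ω : DForm ℂ X.K (n + 1)) (h : X.K), P283M.Br.Frm ω h := by
  obtain ⟨y, hy, -⟩ := id hK
  obtain ⟨D, hD⟩ := Cb.fr_of hK hy
  let L : Derivation ℂ X.K X.K →ₗ[X.K] Fin (n + 1) → X.K :=
    { toFun := fun v l => v (y l), map_add' := fun _ _ => rfl, map_smul' := fun _ _ => rfl }
  obtain ⟨h, -, fr⟩ := frm X (n + 1) hK ((Pi.basisFun X.K (Fin (n + 1))).det.compLinearMap L)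
    fun z => by
      have k : (Pi.basisFun X.K (Fin (n + 1))).det (fun i => L (D i)) = 0 :=
        congrArg (fun w => w D) z
      rw [Pi.basisFun_det_apply] at k
      exact one_ne_zero ((Cb.jac_self hD).symm.trans k)
  exact ⟨_, h, fr⟩

theorem rg (D : Fin k → X.PrimeDiv →₀ ℤ) :
    g ∈ Sg.Sec (pls W) (dvs D) 0 ↔ ∀ x ∈ W, RegAt g x := by
  rw [sec]
  simp only [Pi.zero_apply, zero_mul, Finset.sum_const_zero, add_zero]
  refine ⟨fun a x hx => ?_, fun a _ E b => ?_⟩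
  · rcases eq_or_ne g 0 with rfl | g0
    · exact (lr x).zero_mem
    · exact har X g x fun E b => a g0 E (b.mem_open W.isOpen hx)
  · rw [pq_ord]
    exact Pl.ord_nonneg_of_mem _ ((pq_is E g).2 (a _ b))

theorem nu_mul (h : RegAt a x) (h' : g ∈ nu x) : a * g ∈ nu x := by
  obtain ⟨b, rfl⟩ := reg_iff.1 h
  obtain ⟨c, p, rfl⟩ := h'
  exact ⟨b * c, fun q => p (isUnit_of_mul_isUnit_right q), map_mul _ _ _⟩

theorem nu_con (h : g - algebraMap ℂ X.K γ ∈ nu x) : g ∈ nu x ↔ γ = 0 := by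
  refine ⟨fun a => by_contra fun c0 => ?_, fun a => by rwa [a, map_zero, sub_zero] at h⟩
  have := sub_mem a h
  rw [sub_sub_cancel] at this
  exact (nu_iff.1 this).2 ⟨(map_ne_zero _).2 c0, reg_const γ x, map_inv₀ (algebraMap ℂ X.K) γ ▸
    reg_const γ⁻¹ x⟩

/-- the regular functions -/
def rA (W : X.X.Opens) : Subalgebra ℂ X.K where
  carrier := {g | ∀ x ∈ W, RegAt g x}
  mul_mem' a b x h := reg_mul (a x h) (b x h)
  add_mem' a b x h := (lr x).add_mem (a x h) (b x h)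
  algebraMap_mem' c x _ := reg_const c x

/-- the functions which vanish at `x` -/
def rm (h : x ∈ W) : Ideal (rA W) where
  carrier := {g | g.1 ∈ nu x}
  add_mem' a b := (nu x).add_mem a b
  zero_mem' := (nu x).zero_mem
  smul_mem' c _ a := nu_mul (c.2 x h) a

theorem rm_max (h : x ∈ W) (H : ∀ g ∈ rA W, ∃ γ, g - algebraMap ℂ X.K γ ∈ nu x) :
    (rm h).IsMaximal := by
  refine Ideal.isMaximal_iff.2 ⟨fun a => (nu_iff.1 a).2 unAt_one, fun J g le a b => ?_⟩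
  obtain ⟨c, e⟩ := H g g.2
  have := sub_mem b (le (show g - algebraMap ℂ _ c ∈ rm h from e))
  rw [sub_sub_cancel] at this
  exact (Ideal.eq_top_iff_one J).1 (J.eq_top_of_isUnit_mem this
    ((IsUnit.mk0 c fun z => a ((nu_con e).2 z)).map (algebraMap ℂ _)))

end S20

open Vale.Agent.P287D Sl Sl.Var Sg Sg.T20 Tq.T20 S20 in
/-- **SPFR** -/
theorem spfr20 : SPFR := by
  intro res ack pt pdf Y d W S hd ⟨k, N, D, L, _, _, s, bo, ρ, h1, h2, h3, h4⟩ hK ⟨x₀, hx₀⟩ SW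
  obtain ⟨n, rfl⟩ : ∃ n, d = n + 1 := ⟨d - 1, by omega⟩
  obtain ⟨ω, j, fr⟩ := form (X := Y.o) hK
  choose e x x0 hx using h1
  have fc := fac (X := Y.o) (W := W) hK fr x0 hx
  have es : (fun m => sections W (comb D m)) = Sec (pls (X := Y.o) W) (dvs (X := Y.o) D) :=
    funext fun m => Set.ext fun φ => (sec (X := Y.o) D m φ).symm
  have sa := es ▸ h3.old
  obtain ⟨σ, c, rs, -⟩ := res _ L _ _ _ _ _ _ s bo ρ fc sa
  have ac := ack _ L _ _ _ _ _ _ s bo ρ fc sa σ c (G19.sub _ _) rs fun _ _ => Iff.rfl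
  have fx : ∀ δ, ∀ g ∈ S20.rA (X := Y.o) W, ∀ x, S x → σ δ g ∈ nu (X := Y.o) x :=
    fun δ g hg x hx => by
      have a := ac.kp 0 δ g ((rg (X := Y.o) D).2 hg)
      have b := rs.app δ 0 g
      rw [Sf.ac, rs.zero, zero_mul, add_zero] at a
      rw [rs.zero, zero_mul, add_zero] at b
      exact nu_iff.2 ⟨(rg (X := Y.o) D).1 a x (SW x hx), fun q => q.1 (h4 δ g hg _ x hx b q.2.2)⟩
  have dc : ∀ g ∈ S20.rA (X := Y.o) W, ∃ γ, ∀ x, S x →
      g - algebraMap ℂ Y.K γ ∈ nu (X := Y.o) x := fun g hg => by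
    obtain ⟨γ, a⟩ := pt _ L _ _ _ _ bo σ c ac g ((rg (X := Y.o) D).2 hg)
    refine ⟨γ, fun x hx => Submodule.span_le.2 ?_ a⟩
    rintro _ ⟨δ, h, b, rfl⟩
    exact fx δ h ((rg (X := Y.o) D).1 b) x hx
  obtain ⟨N', s', a', J, pd⟩ := pdf _ L _ _ _ _ _ _ s bo ρ fc sa N σ c (S20.rA (X := Y.o) W)
    (S20.rm (X := Y.o) (SW x₀ hx₀)) (es ▸ h2) rs (fun g => (rg (X := Y.o) D).symm)
    (S20.rm_max _ fun g hg => (dc g hg).imp fun γ a => a x₀ hx₀)
    fun δ g hg ⟨_, b⟩ => b (fx δ g hg x₀ hx₀)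
  refine ⟨k, N', _, s', a', _, _, J, pd, fun _ => Iff.rfl, fun x hx g =>
    ⟨fun ⟨p, q⟩ => ⟨p, by_contra fun w => ?_⟩, fun ⟨p, q⟩ => ⟨p, fun w => ?_⟩⟩⟩
  · obtain ⟨γ, a⟩ := dc g p
    exact q ((nu_con (a x₀ hx₀)).2 ((nu_con (a x hx)).1 (nu_iff.2 ⟨p x (SW x hx), w⟩)))
  · obtain ⟨γ, a⟩ := dc g p
    exact (nu_iff.1 ((nu_con (a x hx)).2 ((nu_con (a x₀ hx₀)).1 w))).2 q

end Vale.Agent.P283R.Sf
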