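import Vale.Agent.P283R.Sf.Inv4
import Vale.Agent.P283R.Tq.Spn35

/-!
# P283R, block SF: the system generates the ideal of the orbit modulo its square
-/

open Set

noncomputable section

namespace Vale.Agent.P283R.Sf

open Vale.Agent.P287D Vale.Agent.P283R.Cx
open Vale.Agent.P283R.Lx (Nz Ie)
open Vale.Agent.P283R.Lx.K33 (I2 IeS span_mul)
open Vale.Agent.P283R.Lx.O15
open Vale.Agent.P283R.Tq.S35 (pr_mul pr_inv)

namespace K4

variable {K L : Type} [Field K] [Algebra ℂ K] [LieRing L] [LieAlgebra ℂ L] {k N n : ℕ}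
  {T : Set (Pl K)} {D : Pl K → Fin k → ℤ} {s : Fin N → K} {a : Fin N → Fin k → ℤ}
  {A : Subalgebra ℂ K} {m : Ideal A} {x : Fin n → K} {w : Fin n → Fin k → ℤ}
  {e e' : Fin k → ℤ} {φ θ : K}

theorem kp_sup {σ : L →ₗ⁅ℂ⁆ Derivation ℂ K K} {c : L → (Fin k → ℤ) → K} {U W : Submodule ℂ K}
    (h : ∀ δ, ∀ φ ∈ U, ac σ c δ e φ ∈ U ⊔ W) (h' : Kp σ c e W) : Kp σ c e (U ⊔ W) :=
  fun δ _ hφ => (sup_le (c := (U ⊔ W).comap (I4.acl σ c δ e)) (h δ)
    fun y hy => Submodule.mem_sup_right (h' δ y hy)) hφ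

omit [Algebra ℂ K] in
theorem cut {ν : Fin n → ℕ} (h : ν ≠ 0) : ∃ j ν', dg w ν = w j + dg w ν' ∧
    ∏ i, x i ^ ν i = x j * ∏ i, x i ^ ν' i := by
  obtain ⟨j, hj⟩ := Function.ne_iff.1 h
  obtain ⟨c', rfl⟩ : ∃ c' : Fin n → ℕ, ν = Pi.single j 1 + c' :=
    ⟨ν - Pi.single j 1, funext fun i => by
      by_cases z : i = j
      · subst z
        simp only [Pi.add_apply, Pi.sub_apply, Pi.single_eq_same, Pi.zero_apply] at hj ⊢
        omega
      · simp [z]⟩
  refine ⟨j, c', by rw [dg_add, dg_single], ?_⟩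
  simp only [Pi.add_apply, pow_add, Finset.prod_mul_distrib]
  rw [Finset.prod_eq_single j (fun i _ n => by simp [n]) (by simp)]
  simp

theorem pow_sp (h : φ ∈ Sp s a e) : ∀ i : ℕ, φ ^ i ∈ Sp s a ((i : ℤ) • e)
  | 0 => by simpa using one_sp s a
  | i + 1 => by
    rw [pow_succ, Nat.cast_succ, add_smul, one_smul]
    exact sp_mul (pow_sp h i) h

theorem mon_sp (h : ∀ i, x i ∈ Sp s a (w i)) (ν : Fin n → ℕ) :
    ∏ i, x i ^ ν i ∈ Sp s a (dg w ν) := by
  classical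
  rw [Tq.S35.dg_eq]
  induction (Finset.univ : Finset (Fin n)) using Finset.induction_on with
  | empty => simpa using one_sp s a
  | insert j I hj ih =>
    rw [Finset.prod_insert hj, Finset.sum_insert hj]
    exact sp_mul (pow_sp (h j) _) ih

theorem mon_ie (h : ∀ i, x i ∈ Ie A m s a (w i)) {ν : Fin n → ℕ} (h0 : ν ≠ 0) :
    ∏ i, x i ^ ν i ∈ Ie A m s a (dg w ν) := by
  obtain ⟨j, ν', p, q⟩ := cut (x := x) (w := w) h0
  rw [p, q]
  exact ie_mul (h j) (mon_sp (fun i => (h i).1) ν')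

theorem pr_sp (c : Cox T D s a) (h : Tq.Pr T D e θ) : θ ∈ Sp s a e :=
  (c.sec e θ h.1).2 fun P p => (h.2 P p).ge

theorem i2_sp (h : φ ∈ I2 A m s a e) (h' : θ ∈ Sp s a e') : φ * θ ∈ I2 A m s a (e + e') :=
  span_mul (by
    rintro _ ⟨e1, u, hu, y, hy, rfl⟩
    exact Submodule.subset_span ⟨e1, u, hu, y * θ, by
      rw [add_sub_right_comm]
      exact ie_mul hy h', mul_assoc _ _ _⟩) h

theorem sz_mul (c : Cox T D s a) (h : φ ∈ Sz T D s a A m x w e) (h' : Tq.Pr T D e' θ) :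
    φ * θ ∈ Sz T D s a A m x w (e + e') := by
  obtain ⟨u, hu, y, hy, rfl⟩ := Submodule.mem_sup.1 h
  rw [add_mul]
  refine Submodule.add_mem_sup (span_mul ?_ hu) (i2_sp hy (pr_sp c h'))
  rintro _ ⟨j, η, p, rfl⟩
  exact Submodule.subset_span ⟨j, η * θ, by
    rw [add_sub_right_comm]
    exact pr_mul p h', mul_assoc _ _ _⟩

theorem i2_le (hz : ∀ x, x ∈ A ↔ x ∈ Sp s a 0) : I2 A m s a e ≤ IeS hz m e :=
  Submodule.span_le.2 (by
    rintro _ ⟨e1, u, hu, y, hy, rfl⟩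
    have := ie_mul hu hy.1
    rwa [add_sub_cancel] at this)

end K4

open K4 in
/-- **SPKR** -/
theorem spkr4 : SPKR := by
  intro mul inv K L _ _ _ _ k N T D s a A m b σ c X d n r x w U z v H hx Z hs e φ hφ
  obtain ⟨lb, -, -⟩ := mul K L k T D _ b σ c X.act
  obtain ⟨i1, i2, -, -⟩ := inv K L k N T D s a A m b σ c X
  have kp : Kp σ c e (Sz T D s a A m z v e) := kp_sup (fun δ ψ hψ => Submodule.mem_sup_left
    (I4.kp_span (by
      rintro δ _ ⟨j, θ, p, rfl⟩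
      obtain ⟨γ, q⟩ := X.act.un _ θ p δ
      have := lb δ (v j) (e - v j) (z j) θ
      rw [add_sub_cancel] at this
      rw [this, q, mul_smul_comm]
      refine add_mem (span_mul ?_ (Z.inv δ j))
        (Submodule.smul_mem _ _ (Submodule.subset_span ⟨j, θ, p, rfl⟩))
      rintro _ ⟨i, hi, rfl⟩
      exact Submodule.subset_span ⟨i, θ, by rwa [show v i = v j from hi], rfl⟩) δ ψ hψ)) (i2 e)
  have le : Sz T D s a A m z v e ≤ IeS X.zero m e := sup_le (Submodule.span_le.2 (by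
    rintro _ ⟨j, θ, p, rfl⟩
    have := ie_mul (Z.ie j) (pr_sp X.cox p)
    rwa [add_sub_cancel] at this)) (i2_le X.zero)
  obtain ⟨M, m1, m2, m3⟩ := X.act.cr e _ (IeS X.zero m e) kp (i1 e) le fun _ h => h.1
  have ml : M ≤ IeS X.zero m e := m3 ▸ le_sup_right
  by_cases M0 : M = ⊥
  · rw [M0, sup_bot_eq] at m3
    exact m3.ge hφ
  obtain ⟨y, y1, y0, y2⟩ := X.act.ev e M m1 (fun _ h => (ml h).1) M0
  obtain ⟨ν, θ, p, q⟩ := H.fac e y (ml y1).1 y0 y2
  refine absurd (Submodule.disjoint_def.1 m2 y ?_ y1) y0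
  by_cases n0 : ν = 0
  · subst n0
    rw [dg_zero, sub_zero] at p
    refine absurd ?_ ((ml y1).2 _ (pr_sp X.cox (pr_inv p)))
    have : y * θ⁻¹ = 1 := by simp [q, p.1]
    rw [this]
    exact nz_one X.max.ne_top
  obtain ⟨j, ν', e1, e2⟩ := cut (x := x) (w := w) n0
  rw [q, e2]
  by_cases n1 : ν' = 0
  · subst n1
    have := sz_mul X.cox (hs j) p
    rw [e1, dg_zero, add_zero, add_sub_cancel] at this
    simpa using this
  · refine Submodule.mem_sup_right (Submodule.subset_span ⟨w j, _, hx j, _, ?_, mul_assoc _ _ _⟩)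
    have := ie_mul (mon_ie hx n1) (pr_sp X.cox p)
    rwa [e1, show dg w ν' + (e - (w j + dg w ν')) = e - w j by ring] at this

end Vale.Agent.P283R.Sf
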