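import Vale.Agent.P283R.Sf.St

/-!
# P283R, block SF: another system of generators
-/

noncomputable section

namespace Vale.Agent.P283R.Sf

open Vale.Agent.P287D Vale.Agent.P283R.Cx

theorem sys78 : SYS := fun K _ _ k N N' T D s a s' a' c h h' => by
  have e : Sp s' a' = Sp s a := funext fun e => le_antisymm
    (Lx.G3.sp_le (M := Sp s a) sp_mul (Lx.O15.one_sp s a) (fun j => (h j).2) e)
    (Lx.G3.sp_le (M := Sp s' a') sp_mul (Lx.O15.one_sp s' a') h' e)
  exact ⟨e, fun j => (h j).1, e ▸ c.sec, c.fin, e ▸ c.fr0, e ▸ c.fr1⟩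

end Vale.Agent.P283R.Sf
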