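import Vale.Agent.P283R.Sf.St

/-!
# P283R, block SF: the sections modulo the ideal of the orbit
-/

open Set

noncomputable section

namespace Vale.Agent.P283R.Sf

open Vale.Agent.P287D Vale.Agent.P297Z Vale.Agent.P283R.Cx
open Vale.Agent.P283R.Lx (Nz Ie)
open Vale.Agent.P283R.Lx.K33 (IeS)
open Vale.Agent.P283R.Lx.O15

namespace U15

variable {K L : Type} [Field K] [Algebra ℂ K] [LieRing L] [LieAlgebra ℂ L] {k N : ℕ}
  {T : Set (Pl K)} {D : Pl K → Fin k → ℤ} {s : Fin N → K} {a : Fin N → Fin k → ℤ}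
  {A : Subalgebra ℂ K} {m : Ideal A} {b : LieSubalgebra ℂ L} {σ : L →ₗ⁅ℂ⁆ Derivation ℂ K K}
  {c : L → (Fin k → ℤ) → K} {e : Fin k → ℤ} {φ y : K}
  (F : Fx T D s a A m b σ c) (hi : ∀ e δ, ∀ φ ∈ Ie A m s a e, ac σ c δ e φ ∈ Ie A m s a e)

include F hi

/-- an eigenvector outside the ideal of the orbit -/
theorem eig (h : φ ∈ Sp s a e) (n : φ ∉ Ie A m s a e) :
    ∃ y ∈ Sp s a e, y ∉ Ie A m s a e ∧ Eb σ c b e y := by
  obtain ⟨M, h1, h2, h3⟩ := F.act.cr e (IeS F.zero m e) _ (hi e) (F.act.kp e) (fun _ x => x.1) le_rfl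
  have le : M ≤ Sp s a e := h3 ▸ le_sup_right
  obtain ⟨y, y1, y0, y2⟩ := F.act.ev e M h1 le fun z => n (by
    rw [z, sup_bot_eq] at h3
    exact (h3.ge h : φ ∈ IeS F.zero m e))
  exact ⟨y, le y1, fun z => y0 (Submodule.disjoint_def.1 h2 y z y1), y2⟩

theorem unit (ml : MUL) (h : y ∈ Sp s a e) (n : y ∉ Ie A m s a e) (ev : Eb σ c b e y) :
    Tq.Pr T D e y := by
  obtain ⟨m1, m2, -⟩ := ml K L k T D _ b σ c F.act
  obtain ⟨ψ, p1, p2⟩ := (not_ie h).1 n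
  obtain ⟨z, z1, z2, z3⟩ := eig F hi p1 ((not_ie p1).2 ⟨y, by rwa [neg_neg], by rwa [mul_comm]⟩)
  obtain ⟨χ, q1, q2⟩ := (not_ie z1).1 z2
  have a1 : y * z ∈ A := mem0 F.zero h z1
  have a2 : ψ * χ ∈ A := mem0 F.zero p1 q1
  have nz : Nz A m (y * z) := by
    obtain ⟨u, v⟩ := nz_mul F.max.isPrime p2 q2
    refine ⟨a1, fun w => v ?_⟩
    exact (congrArg (· ∈ m) (Subtype.ext (mul_mul_mul_comm y z ψ χ))).mp
      (m.mul_mem_right ⟨_, a2⟩ w)
  have n0 : y * z ≠ 0 := fun w => (not_nz (zero_mem A)).2 m.zero_mem (w ▸ nz)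
  obtain ⟨γ, hγ⟩ := F.act.con (y * z) fun δ hδ => by
    obtain ⟨g, hg⟩ := ev δ hδ
    obtain ⟨g', hg'⟩ := z3 δ hδ
    have e1 := m1 δ e (-e) y z
    rw [add_neg_cancel, m2, hg, hg', smul_mul_assoc, mul_smul_comm, ← add_smul] at e1
    by_contra n1
    have g0 : g + g' ≠ 0 := fun w => n1 (by rw [e1, w, zero_smul])
    refine F.fix δ _ a1 ⟨e1 ▸ A.smul_mem a1 _, fun w => nz.2 ?_⟩
    refine (congrArg (· ∈ m) (Subtype.ext ?_)).mp (m.mul_mem_left (algebraMap ℂ A (g + g')⁻¹) w)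
    show algebraMap ℂ K _ * σ δ (y * z) = y * z
    rw [e1, ← Algebra.smul_def, inv_smul_smul₀ g0]
  have y0 := left_ne_zero_of_mul n0
  have z0 := right_ne_zero_of_mul n0
  refine ⟨y0, fun P hP => ?_⟩
  have b1 := (F.cox.sec _ _ y0).1 h P hP
  have b2 := (F.cox.sec _ _ z0).1 z1 P hP
  have b3 := P.ord_const γ
  rw [hγ, Pl.ord_mul _ y0 z0] at b3
  rw [neg_dotProduct] at b2
  omega

end U15

open U15 in
/-- **UNIR** -/
theorem unir15 : UNIR := by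
  intro pt ml iv K L _ _ _ _ k N T D s a A m b σ c F
  have hi := (iv K L k N T D s a A m b σ c F).1
  refine ⟨fun e φ h => or_iff_not_imp_left.2 fun n => ?_,
    fun e y h ev => or_iff_not_imp_left.2 fun n => unit F hi ml h n ev⟩
  obtain ⟨y, y1, y2, y3⟩ := U15.eig F hi h n
  have p := unit F hi ml y1 y2 y3
  have q : y⁻¹ ∈ Sp s a (-e) := (F.cox.sec _ _ (inv_ne_zero p.1)).2 fun P hP => by
    have := p.2 P hP
    rw [Pl.ord_inv, neg_dotProduct]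
    omega
  obtain ⟨γ, hγ⟩ := pt K L k T D _ b σ c F.act _ ((F.zero _).1 (mem0 F.zero h q))
  have le := (Submodule.span_le (p := IeS F.zero m 0)).2 (by
    rintro _ ⟨δ, g, hg, rfl⟩
    have a1 : σ δ g ∈ A := (F.zero _).2
      ((ml K L k T D _ b σ c F.act).2.1 δ g ▸ F.act.kp 0 δ g hg)
    exact ie_base F.zero (x := ⟨_, a1⟩) ((not_nz a1).1 (F.fix δ g ((F.zero g).2 hg)))) hγ
  have := ie_mul le y1
  rw [zero_add, sub_mul, inv_mul_cancel_right₀ p.1, ← Algebra.smul_def] at this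
  exact ⟨y, γ, p, this⟩

end Vale.Agent.P283R.Sf
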