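import Vale.Agent.P283R.Sq.All3

/-!
# P283R, block SF: bounded klt complements for quotients of spherical varieties by finite groups
-/

namespace Vale.Agent.P283R

open Sl.Var in
/-- **quotients of spherical varieties by finite groups** -/
theorem Sl.on_sf : Sl.On fun d _ _ f ω B z =>
    FanoType f ω ∧ NefOver f (-logCan ω B) ∧ Sl.SphericalQuotient f z d :=
  Sf.on_of Tq.fcr55 Tq.stg Tq.quo10 Sq.spf0

end Vale.Agent.P283R
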