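import Vale.Agent.P283R.Sf.St

/-!
# P283R, block SF: the monomials approximate (row `APX`)
-/

open Set

noncomputable section

namespace Vale.Agent.P283R.Sf

open Vale.Agent.P287D Vale.Agent.P283R.Cx
open Vale.Agent.P283R.Lx (Nz Ie)
open Vale.Agent.P283R.Lx.K33 (I2 Pw IeS Tm span_mul iter)

namespace A17

variable {K : Type} [Field K] [Algebra ℂ K] {k N r : ℕ} {T : Set (Pl K)} {D : Pl K → Fin k → ℤ}
  {z : Fin r → K} {v : Fin r → Fin k → ℤ} {e e' : Fin k → ℤ} {x y : K}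

theorem pr_mul (h : Tq.Pr T D e x) (h' : Tq.Pr T D e' y) : Tq.Pr T D (e + e') (x * y) :=
  ⟨mul_ne_zero h.1 h'.1, fun P p => by
    have a := h.2 P p
    have b := h'.2 P p
    rw [P297Z.Pl.ord_mul _ h.1 h'.1, add_dotProduct]
    omega⟩

theorem mz_mul (hx : x ∈ Mz T D z v e) (hy : y ∈ Mz T D z v e') :
    x * y ∈ Mz T D z v (e + e') := by
  refine span_mul ?_ hx
  rintro _ ⟨β, θ, p, rfl⟩
  rw [mul_comm]
  refine span_mul ?_ hy
  rintro _ ⟨β', θ', p', rfl⟩
  refine Submodule.subset_span ⟨β + β', θ * θ', ?_, ?_⟩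
  · have := pr_mul p p'
    rwa [sub_add_sub_comm, ← dg_add] at this
  · simp only [Pi.add_apply, pow_add, Finset.prod_mul_distrib]
    ring

theorem mz_pr (h : Tq.Pr T D e x) : x ∈ Mz T D z v e :=
  Submodule.subset_span ⟨0, x, by rwa [dg_zero, sub_zero], by simp⟩

theorem mz_z (j : Fin r) (h : Tq.Pr T D (e - v j) x) : z j * x ∈ Mz T D z v e :=
  Submodule.subset_span ⟨Pi.single j 1, x, by rwa [dg_single], by
    simp [Pi.single_apply, pow_ite]⟩

theorem prod_sp {s : Fin N → K} {a : Fin N → Fin k → ℤ} (h : ∀ j, z j ∈ Sp s a (v j))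
    (β : Fin r → ℕ) : ∏ j, z j ^ β j ∈ Sp s a (dg v β) := by
  have pw : ∀ j (n : ℕ), z j ^ n ∈ Sp s a ((n : ℤ) • v j) := fun j n => by
    induction n with
    | zero => simpa using Lx.O15.one_sp s a
    | succ n ih =>
      rw [pow_succ, Nat.cast_succ, add_smul, one_smul]
      exact sp_mul ih (h j)
  have k : ∀ S : Finset (Fin r), ∏ j ∈ S, z j ^ β j ∈ Sp s a (∑ j ∈ S, (β j : ℤ) • v j) :=
    fun S => by
      induction S using Finset.induction_on with
      | empty => simpa using Lx.O15.one_sp s a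
      | insert j S hj ih =>
        rw [Finset.prod_insert hj, Finset.sum_insert hj]
        exact sp_mul (pw j _) ih
  have q : dg v β = ∑ j, (β j : ℤ) • v j := by
    funext i
    simp [dg, Finset.sum_apply]
  rw [q]
  exact k _

end A17

open A17 in
/-- **APX** -/
theorem apx17 : APX := by
  intro K _ _ k N r T D s a A m z v cox hz uni ie sz
  have pr : ∀ {e θ}, Tq.Pr T D e θ → θ ∈ Sp s a e := fun p =>
    (cox.sec _ _ p.1).2 fun P hP => (p.2 P hP).ge
  have le : ∀ e, Mz T D z v e ≤ Sp s a e := fun e => Submodule.span_le.2 (by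
    rintro _ ⟨β, θ, p, rfl⟩
    simpa using sp_mul (prod_sp (fun j => (ie j).1) β) (pr p))
  refine fun e => ⟨le e, fun i => ?_⟩
  let τ : Fin 0 → A := Fin.elim0
  have t0 : ∀ e, Tm τ s a e = ⊥ := fun e => Submodule.span_eq_bot.2 (by
    rintro _ ⟨i, _⟩
    exact i.elim0)
  have k := iter (m := m) (τ := τ) (M := Mz T D z v) mz_mul (fun e φ h => by
    rcases uni e φ h with c | ⟨θ, γ, p, c⟩
    · exact ⟨0, zero_mem _, by rwa [sub_zero]⟩
    · exact ⟨γ • θ, Submodule.smul_mem _ γ (mz_pr p), c⟩) (fun e φ h => by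
    obtain ⟨x, hx, y, hy, rfl⟩ := Submodule.mem_sup.1 (sz e φ h)
    have c : x ∈ Mz T D z v e ⊓ IeS hz m e := Submodule.span_le.2 (by
      rintro _ ⟨j, θ, p, rfl⟩
      exact ⟨mz_z j p, show _ ∈ Ie A m s a e by simpa using Lx.O15.ie_mul (ie j) (pr p)⟩) hx
    exact ⟨x, c.1, c.2, by simpa using Submodule.mem_sup_left hy⟩) e i
  rw [t0, sup_bot_eq] at k
  exact k.trans (sup_le_sup_right inf_le_left _)

end Vale.Agent.P283R.Sf
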