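import Vale.Agent.P283R.Sf.St
import Vale.Agent.P283R.Sg.Fct9

/-!
# P283R, block SF: the prime eigenvectors degree by degree
-/

open Set

noncomputable section

namespace Vale.Agent.P283R.Sf

open Vale.Agent.P287D Vale.Agent.P283R.Sl Vale.Agent.P283R.Cx Vale.Agent.P283R.Sg
open Vale.Agent.P283R.Sg.F9

theorem hwkr3 : HWKR := by
  intro eg fct cnt gen mod spa K L _ _ _ _ d k T D x e s b ρ f h σ c R rs hR
  classical
  obtain ⟨S, U, hS, hU, le⟩ := mod K L d k T D x e s b ρ f h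
  have lf : ∀ δ m, ∀ φ ∈ Sec T D m, LF (ρ δ) (sg m φ) := fun δ m φ hφ =>
    let ⟨N, a, c, g⟩ := h.locFinite m φ hφ
    ⟨N, c, g, a δ⟩
  have fa : ∀ δ m m' φ ψ, φ ∈ Sec T D m → ψ ∈ Sec T D m' → φ * ψ ≠ 0 →
      Ev (ρ δ) (sg (m + m') (φ * ψ)) → Ev (ρ δ) (sg m φ) := fun δ m m' φ ψ a c z v =>
    eg _ (ρ δ) _ _ (lf δ m φ a) (lf δ m' ψ c)
      (sg_mul m m' φ ψ ▸ AddMonoidAlgebra.single_ne_zero.2 z) (sg_mul m m' φ ψ ▸ v)
  have ev : ∀ δ m φ, Ev (ρ δ) (sg m φ) ↔ ∃ γ : ℂ, ac σ c δ m φ = γ • φ := fun δ m φ =>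
    exists_congr fun γ => by
      rw [rs.app, AddMonoidAlgebra.smul_single]
      exact ⟨sg_inj, congrArg _⟩
  let P : Fin S.card → Pl K := fun i => S.equivFin.symm i
  have PS : ∀ i, P i ∈ S := fun i => (S.equivFin.symm i).2
  have PT : ∀ i, P i ∈ T := fun i => ((hS _).1 (PS i)).1
  have sP : ∀ {M : Type} [AddCommMonoid M] (g : Pl K → M), ∑ i, g (P i) = ∑ E ∈ S, g E :=
    fun g => (S.equivFin.symm.sum_comp fun E => g E).trans (S.sum_coe_sort g)
  have pP : ∀ g : Pl K → K, ∏ i, g (P i) = ∏ E ∈ S, g E :=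
    fun g => (S.equivFin.symm.prod_comp fun E => g E).trans (S.prod_coe_sort g)
  let V : Pl K → Submodule ℂ K := fun Q => (U Q).comap (AddMonoidAlgebra.lsingle (e Q))
  have inj : ∀ Q, Function.Injective ((AddMonoidAlgebra.lsingle (e Q)).restrict
      (p := V Q) (q := U Q) fun _ a => a) := fun Q u v w =>
    Subtype.ext (sg_inj (congrArg Subtype.val w))
  refine ⟨S.card, x ∘ P, e ∘ P, V ∘ P, fun i => (hU _ (PS i)).1, fun i => f.ne _ (PT i),
    fun i z => ?_, fun i δ hδ => (ev δ _ _).1 (((hS _).1 (PS i)).2 δ hδ), fun i => ?_,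
    fun i δ φ hφ => ?_, fun i φ hφ => ?_, ?_, fun m y hy y0 yb => ?_, fun J hJ => ?_⟩
  · exact one_ne_zero ((f.one _ (PT i)).symm.trans (z.2 _ (PT i)))
  · have := (hU _ (PS i)).2.1
    exact Module.Finite.of_injective _ (inj (P i))
  · have := (hU _ (PS i)).2.2.1 δ _ hφ
    change ρ δ (sg _ φ) ∈ _ at this
    rw [rs.app] at this
    exact this
  · obtain ⟨ψ, a, w⟩ := (hU _ (PS i)).2.2.2 _ hφ
    exact (hR _ _).2 (sg_inj w ▸ a)
  · refine le_trans (Nat.add_le_add_right ?_ _) le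
    rw [← sP fun Q => Module.finrank ℂ (U Q)]
    exact Finset.sum_le_sum fun i _ => by
      have := (hU _ (PS i)).2.1
      exact LinearMap.finrank_le_finrank_of_injective (inj (P i))
  · have a := (hR _ _).1 hy
    obtain ⟨S', ν, m', u, s1, -, s2, s3⟩ := (fct K d k T D x e f).1 m y a y0
    have sub : S' ⊆ S := fun Q p => by
      obtain ⟨p, q⟩ := (s1 Q).1 p
      have x0 := f.ne Q p
      refine (hS Q).2 ⟨p, fun δ hδ => fa δ (e Q) (m - e Q) (x Q) (y / x Q) (fun _ Q' g => ?_)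
        (fun _ Q' g => ?_) (by rwa [mul_div_cancel₀ _ x0]) ?_⟩
      · by_cases z : Q' = Q
        · rw [z, f.one Q p]; exact zero_le_one
        · exact (f.zero Q p Q' g z).ge
      · rw [show Q'.ord (y / x Q) = Q'.ord y - Q'.ord (x Q) from P297Z.Pl.ord_div _ y0 x0,
          sub_dotProduct]
        by_cases z : Q' = Q
        · have := f.one Q p
          rw [z]
          omega
        · have := f.zero Q p Q' g z
          have := a y0 Q' g
          omega
      · rw [add_sub_cancel, mul_div_cancel₀ _ x0]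
        exact (ev δ _ _).2 (yb δ hδ)
    rw [sg_prod, sg_mul] at s3
    have em : m = m' + ∑ i ∈ S', (ν i : ℤ) • e i := by_contra fun z => y0 (by
      have := congrArg (fun F : Laurent K k => F.coeff m) s3
      simp only [AddMonoidAlgebra.coeff_single, Finsupp.single_eq_same] at this
      exact this.trans (Finsupp.single_eq_of_ne z))
    rw [← em] at s3
    refine ⟨fun i => if P i ∈ S' then ν (P i) else 0, u, ?_, ?_⟩
    · have : m - dg (e ∘ P) (fun i => if P i ∈ S' then ν (P i) else 0) = m' := by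
        rw [em, add_sub_assoc, add_eq_left, sub_eq_zero]
        funext j
        simp only [dg, Function.comp_apply, Finset.sum_apply, Pi.smul_apply, smul_eq_mul]
        rw [sP fun Q => ((if Q ∈ S' then ν Q else 0 : ℕ) : ℤ) * e Q j]
        refine Finset.sum_subset_zero_on_sdiff sub (fun Q q => ?_) fun Q q => by simp [q]
        simp [(Finset.mem_sdiff.1 q).2]
      exact this ▸ s2
    · rw [sg_inj s3, mul_comm]
      congr 1
      simp only [Function.comp_apply]
      rw [pP fun Q => x Q ^ if Q ∈ S' then ν Q else 0]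
      refine Finset.prod_subset_one_on_sdiff sub (fun Q q => ?_) fun Q q => by simp [q]
      simp [(Finset.mem_sdiff.1 q).2]
  · obtain ⟨r, g, a1, a2, a3⟩ := cnt K L d k T D x e s b ρ f h S J (fun Q q => (hS Q).1 q)
      (gen K L d k T D x e s b ρ f h).1 hJ
    exact ⟨r, fun j => (g j).2, fun j => (g j).1, a1, a2, fun p hp =>
      (spa K k r _ _ _ _).1 (a3 p hp)⟩

end Vale.Agent.P283R.Sf
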