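import Vale.Agent.P283R.Sf.St
import Vale.Agent.P283R.Tq.Spn35

/-!
# P283R, block SF: a minimal invariant system
-/

open Set

noncomputable section

namespace Vale.Agent.P283R.Sf

open Vale.Agent.P287D Vale.Agent.P283R.Cx
open Vale.Agent.P283R.Lx (Nz Ie)
open Vale.Agent.P283R.Lx.K33 (I2 Pw span_mul)
open Vale.Agent.P283R.Lx.O15 (ie_mul)
open Vale.Agent.P283R.Tq.S35 (pr_one pr_mul pr_inv)

namespace M19

variable {K L : Type} [Field K] [Algebra ℂ K] [LieRing L] [LieAlgebra ℂ L] {k N n r p : ℕ}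
  {T : Set (Pl K)} {D : Pl K → Fin k → ℤ} {s : Fin N → K} {a : Fin N → Fin k → ℤ}
  {A : Subalgebra ℂ K} {m : Ideal A} {b : LieSubalgebra ℂ L}
  {σ : L →ₗ⁅ℂ⁆ Derivation ℂ K K} {c : L → (Fin k → ℤ) → K} {e e' : Fin k → ℤ}
  {z : Fin r → K} {v : Fin r → Fin k → ℤ}

/-- the action as a linear map -/
def al (σ : L →ₗ⁅ℂ⁆ Derivation ℂ K K) (c : L → (Fin k → ℤ) → K) (δ : L) (e : Fin k → ℤ) :
    K →ₗ[ℂ] K := (σ δ).toLinearMap + LinearMap.mulLeft ℂ (c δ e)

theorem kp_inf {W W' : Submodule ℂ K} (h : Kp σ c e W) (h' : Kp σ c e W') : Kp σ c e (W ⊓ W') :=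
  fun δ φ x => ⟨h δ φ x.1, h' δ φ x.2⟩

theorem i2_sp : I2 A m s a e ≤ Sp s a e := Submodule.span_le.2 (by
  rintro _ ⟨e1, x, hx, y, hy, rfl⟩
  simpa using sp_mul hx.1 hy.1)

theorem i2_mul {x y : K} (hx : x ∈ I2 A m s a e) (hy : y ∈ Sp s a e') :
    x * y ∈ I2 A m s a (e + e') :=
  span_mul (by
    rintro _ ⟨e1, u, hu, w, hw, rfl⟩
    refine Submodule.subset_span ⟨e1, u, hu, w * y, ?_, mul_assoc _ _ _⟩
    have := ie_mul hw hy
    rwa [sub_add_eq_add_sub] at this) hx

theorem sz_gen (j : Fin r) {θ : K} (h : Tq.Pr T D (e - v j) θ) :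
    z j * θ ∈ Sz T D s a A m z v e :=
  Submodule.mem_sup_left (Submodule.subset_span ⟨j, θ, h, rfl⟩)

/-- independence, with the support of the coefficients -/
def Mi (T : Set (Pl K)) (D : Pl K → Fin k → ℤ) (s : Fin N → K) (a : Fin N → Fin k → ℤ)
    (A : Subalgebra ℂ K) (m : Ideal A) (z : Fin r → K) (v : Fin r → Fin k → ℤ) : Prop :=
  ∀ (e : Fin k → ℤ) (θ : Fin r → K) (γ : Fin r → ℂ), (∀ j, γ j ≠ 0 → Tq.Pr T D (e - v j) (θ j)) →
    ∑ j, γ j • (z j * θ j) ∈ I2 A m s a e → ∀ j, γ j = 0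

theorem Mi.mn (h : Mi T D s a A m z v) : Mn T D s a A m z v Finset.univ := by
  classical
  intro e I θ γ _ hθ hs j hj
  have := h e θ (fun j => if j ∈ I then γ j else 0) (fun j n => hθ j (by
    by_contra x
    exact n (if_neg x))) (by
      simp only [ite_smul, zero_smul, Finset.sum_ite_mem, Finset.univ_inter]
      exact hs) j
  rwa [if_pos hj] at this

variable (mul : MUL) (inv : INV) (X : Fx T D s a A m b σ c)

include X

theorem pr_sp {θ : K} (h : Tq.Pr T D e θ) : θ ∈ Sp s a e :=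
  (X.cox.sec e θ h.1).2 fun P q => (h.2 P q).ge

theorem sz_sp (Z : Zs s a A m σ c z v) : Sz T D s a A m z v e ≤ Sp s a e :=
  sup_le (Submodule.span_le.2 (by
    rintro _ ⟨j, θ, h, rfl⟩
    simpa using sp_mul (Z.ie j).1 (pr_sp X h))) i2_sp

include mul inv

theorem kp_sz (Z : Zs s a A m σ c z v) : Kp σ c e (Sz T D s a A m z v e) := fun δ => by
  have k : Sz T D s a A m z v e ≤ (Sz T D s a A m z v e).comap (al σ c δ e) := by
    refine sup_le (Submodule.span_le.2 ?_) fun φ h =>
      Submodule.mem_sup_right ((inv K L k N T D s a A m b σ c X).2.1 e δ φ h)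
    rintro _ ⟨j, θ, h, rfl⟩
    have l := (mul K L k T D _ b σ c X.act).1 δ (v j) (e - v j) (z j) θ
    obtain ⟨γ, hγ⟩ := X.act.un _ θ h δ
    rw [add_sub_cancel, hγ, mul_smul_comm] at l
    show ac σ c δ e (z j * θ) ∈ Sz T D s a A m z v e
    rw [l]
    refine add_mem (span_mul ?_ (Z.inv δ j)) (Submodule.smul_mem _ _ (sz_gen j h))
    rintro _ ⟨i, hi, rfl⟩
    exact sz_gen i (by rw [show v i = v j from hi]; exact h)
  exact fun φ h => k h

theorem step (Z : Zs s a A m σ c z v) (M : Mi T D s a A m z v) (w : Fin k → ℤ)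
    (U : Submodule ℂ K) (fin : Module.Finite ℂ U) (kp : Kp σ c w U)
    (ie : ∀ φ ∈ U, φ ∈ Ie A m s a w) : ∃ (r' : ℕ) (z' : Fin r' → K) (v' : Fin r' → Fin k → ℤ),
      r' ≤ r + Module.finrank ℂ U ∧ Zs s a A m σ c z' v' ∧ Mi T D s a A m z' v' ∧
      (∀ e, Sz T D s a A m z v e ≤ Sz T D s a A m z' v' e) ∧ U ≤ Sz T D s a A m z' v' w := by
  obtain ⟨C, kC, dj, su⟩ := X.act.cr w _ U (kp_inf kp (kp_sz mul inv X Z)) kp inf_le_left
    fun φ h => (ie φ h).1
  have le : C ≤ U := su ▸ le_sup_right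
  have : Module.Finite ℂ C := Submodule.finiteDimensional_of_le le
  let B := Module.finBasis ℂ C
  let y : Fin (Module.finrank ℂ C) → K := fun j => B j
  have sp : Submodule.span ℂ (range y) = C := by
    have := congrArg (Submodule.map C.subtype) B.span_eq
    rwa [Submodule.map_span, ← range_comp, Submodule.map_subtype_top] at this
  have li : LinearIndependent ℂ y := B.linearIndependent.map' C.subtype C.ker_subtype
  have mono : ∀ e, Sz T D s a A m z v e ≤
      Sz T D s a A m (Fin.append z y) (Fin.append v fun _ => w) e := fun e =>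
    sup_le_sup_right (Submodule.span_mono (by
      rintro _ ⟨j, θ, h, rfl⟩
      exact ⟨Fin.castAdd _ j, θ, by rwa [Fin.append_left], by rw [Fin.append_left]⟩)) _
  refine ⟨_, Fin.append z y, Fin.append v fun _ => w,
    Nat.add_le_add_left (Submodule.finrank_mono le) r, ⟨fun j => ?_, fun δ j => ?_⟩, ?_, mono, ?_⟩
  · refine Fin.addCases (fun j => ?_) (fun j => ?_) j
    · simpa only [Fin.append_left] using Z.ie j
    · simpa only [Fin.append_right] using ie _ (le (B j).2)
  · refine Fin.addCases (fun j => ?_) (fun j => ?_) j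
    · simp only [Fin.append_left]
      refine Submodule.span_mono ?_ (Z.inv δ j)
      rintro _ ⟨i, hi, rfl⟩
      exact ⟨Fin.castAdd _ i, by simpa using hi, Fin.append_left _ _ _⟩
    · simp only [Fin.append_right]
      refine Submodule.span_mono ?_ (sp.ge (kC δ _ (B j).2))
      rintro _ ⟨i, rfl⟩
      exact ⟨Fin.natAdd _ i, by simp, Fin.append_right _ _ _⟩
  · intro e θ γ hθ hs
    rw [Fin.sum_univ_add] at hs
    simp only [Fin.append_left, Fin.append_right] at hs
    have h1 : ∀ j, γ (Fin.castAdd _ j) ≠ 0 → Tq.Pr T D (e - v j) (θ (Fin.castAdd _ j)) :=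
      fun j n => by simpa only [Fin.append_left] using hθ _ n
    have h2 : ∀ j, γ (Fin.natAdd _ j) ≠ 0 → Tq.Pr T D (e - w) (θ (Fin.natAdd _ j)) :=
      fun j n => by simpa only [Fin.append_right] using hθ _ n
    have z2 : ∀ j, γ (Fin.natAdd _ j) = 0 := by
      by_contra x
      obtain ⟨j₀, x⟩ := not_forall.1 x
      have u := pr_inv (h2 j₀ x)
      set t := (θ (Fin.natAdd r j₀))⁻¹
      have ex : ∀ j, ∃ g : ℂ, γ (Fin.natAdd _ j) ≠ 0 →
          g ≠ 0 ∧ θ (Fin.natAdd _ j) * t = algebraMap ℂ K g := fun j => by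
        by_cases n : γ (Fin.natAdd _ j) = 0
        · exact ⟨0, fun x => (x n).elim⟩
        have q := pr_mul (h2 j n) u
        rw [add_neg_cancel] at q
        obtain ⟨g, hg⟩ := (inv K L k N T D s a A m b σ c X).2.2.2 _ q
        exact ⟨g, fun _ => ⟨fun x => q.1 (by rw [← hg, x, map_zero]), hg.symm⟩⟩
      choose g hg using ex
      have e1 : (∑ j, γ (Fin.natAdd _ j) • (y j * θ (Fin.natAdd _ j))) * t =
          ∑ j, (γ (Fin.natAdd _ j) * g j) • y j := by
        rw [Finset.sum_mul]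
        refine Finset.sum_congr rfl fun j _ => ?_
        by_cases n : γ (Fin.natAdd _ j) = 0
        · simp [n]
        · rw [smul_mul_assoc, mul_assoc, (hg j n).2, mul_smul, mul_comm, ← Algebra.smul_def]
      have m1 : ∑ j, (γ (Fin.natAdd _ j) * g j) • y j ∈ C :=
        Submodule.sum_mem _ fun j _ => C.smul_mem _ (B j).2
      have m2 : (∑ j, γ (Fin.castAdd _ j) • (z j * θ (Fin.castAdd _ j))) * t ∈
          Sz T D s a A m z v w := by
        rw [Finset.sum_mul]
        refine Submodule.sum_mem _ fun j _ => ?_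
        by_cases n : γ (Fin.castAdd _ j) = 0
        · simp [n]
        · rw [smul_mul_assoc, mul_assoc]
          refine Submodule.smul_mem _ _ (sz_gen j ?_)
          have := pr_mul (h1 j n) u
          rwa [show e - v j + -(e - w) = w - v j by abel] at this
      have m3 := i2_mul hs (pr_sp X u)
      rw [show e + -(e - w) = w by abel, add_mul, e1] at m3
      have m4 : ∑ j, (γ (Fin.natAdd _ j) * g j) • y j ∈ Sz T D s a A m z v w := by
        have := sub_mem (show _ ∈ Sz T D s a A m z v w from Submodule.mem_sup_right m3) m2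
        rwa [add_sub_cancel_left] at this
      have := Fintype.linearIndependent_iff.1 li _
        ((Submodule.disjoint_def.1 dj) _ ⟨le m1, m4⟩ m1) j₀
      exact mul_ne_zero x (hg j₀ x).1 this
    simp only [z2, zero_smul, Finset.sum_const_zero, add_zero] at hs
    exact fun j => Fin.addCases (M e _ _ h1 hs) z2 j
  · rw [← su]
    refine sup_le (inf_le_right.trans (mono w)) (sp.ge.trans (Submodule.span_le.2 ?_))
    rintro _ ⟨j, rfl⟩
    have := sz_gen (T := T) (D := D) (s := s) (a := a) (A := A) (m := m) (e := w)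
      (z := Fin.append z y) (v := Fin.append v fun _ => w) (Fin.natAdd _ j) (θ := 1)
      (by rw [Fin.append_right, sub_self]; exact pr_one)
    rwa [mul_one, Fin.append_right] at this

end M19

open M19

/-- **MINSR** -/
theorem minsr19 : MINSR := by
  intro mul inv K L _ _ _ _ k N T D s a A m b σ c X n w U fin kp ie
  have key : ∀ S : Finset (Fin n), ∃ (r : ℕ) (z : Fin r → K) (v : Fin r → Fin k → ℤ),
      r ≤ ∑ i ∈ S, Module.finrank ℂ (U i) ∧ Zs s a A m σ c z v ∧ Mi T D s a A m z v ∧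
      ∀ i ∈ S, U i ≤ Sz T D s a A m z v (w i) := fun S => by
    induction S using Finset.induction_on with
    | empty => exact ⟨0, Fin.elim0, Fin.elim0, Nat.zero_le _, ⟨fun j => j.elim0, fun _ j => j.elim0⟩,
        fun _ _ _ _ _ j => j.elim0, fun _ h => (Finset.notMem_empty _ h).elim⟩
    | insert i S hi ih =>
      obtain ⟨r, z, v, h1, Z, M, h2⟩ := ih
      obtain ⟨r', z', v', k1, Z', M', k2, k3⟩ := step mul inv X Z M (w i) (U i) (fin i) (kp i) (ie i)
      refine ⟨r', z', v', by rw [Finset.sum_insert hi]; omega, Z', M', fun j hj => ?_⟩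
      rcases Finset.mem_insert.1 hj with rfl | hj
      exacts [k3, (h2 j hj).trans (k2 _)]
  obtain ⟨r, z, v, h1, Z, M, h2⟩ := key Finset.univ
  exact ⟨r, z, v, h1, Z, M.mn, fun i => h2 i (Finset.mem_univ i)⟩

end Vale.Agent.P283R.Sf
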