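import Vale.Agent.P283R.Sf.St

/-!
# P283R, block SF: the rule of Leibniz; multiplicity one
-/

noncomputable section

namespace Vale.Agent.P283R.Sf

/-- **MUL** -/
theorem mul45 : MUL := by
  intro K L _ _ _ _ k T D R b σ c h
  have c0 : ∀ δ, c δ 0 = 0 := fun δ => by simpa using h.add δ 0 0
  refine ⟨fun δ e e' φ ψ => ?_, fun δ φ => by rw [ac, c0, zero_mul, add_zero],
    fun e y y' y0 H => ?_⟩
  · simp only [ac, h.add, Derivation.leibniz, smul_eq_mul]
    ring
  · obtain ⟨γ, hγ⟩ := h.con (y' / y) fun δ hδ => by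
      obtain ⟨g, a, a'⟩ := H δ hδ
      have e1 : σ δ y' = σ δ (y' / y) * y + y' / y * σ δ y := by
        conv_lhs => rw [← div_mul_cancel₀ y' y0, Derivation.leibniz]
        simp only [smul_eq_mul]
        ring
      rw [ac, Algebra.smul_def, ← eq_sub_iff_add_eq] at a a'
      rw [a, a'] at e1
      refine (mul_eq_zero.1 ?_).resolve_right y0
      field_simp at e1 ⊢
      linear_combination -e1
    exact ⟨γ, by rw [Algebra.smul_def, hγ, div_mul_cancel₀ _ y0]⟩

end Vale.Agent.P283R.Sf
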