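import Vale.Agent.P283R.Sf.St

/-!
# P283R, block SF: the rule of Leibniz and multiplicity one
-/

open Set

noncomputable section

namespace Vale.Agent.P283R.Sf

open Vale.Agent.P287D Vale.Agent.P283R.Sl Vale.Agent.P283R.Cx Vale.Agent.P283R.Sg

theorem mul63 : MUL := by
  intro K L _ _ _ _ k T D R b σ c h
  have lb : ∀ δ e e' φ ψ, ac σ c δ (e + e') (φ * ψ) = ac σ c δ e φ * ψ + φ * ac σ c δ e' ψ := by
    intro δ e e' φ ψ
    simp only [ac, h.add, Derivation.leibniz, smul_eq_mul]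
    ring
  have c0 : ∀ δ, c δ 0 = 0 := fun δ => by
    have := h.add δ 0 0
    rw [add_zero] at this
    linear_combination -this
  refine ⟨lb, fun δ φ => by rw [ac, c0, zero_mul, add_zero], fun e y y' hy H => ?_⟩
  obtain ⟨γ, hγ⟩ := h.con (y' / y) fun δ hδ => by
    obtain ⟨g, h1, h2⟩ := H δ hδ
    have h3 := lb δ 0 e (y' / y) y
    rw [zero_add, div_mul_cancel₀ _ hy, h2, h1, ac, c0, zero_mul, add_zero, mul_smul_comm,
      div_mul_cancel₀ _ hy] at h3
    exact (mul_eq_zero.1 (by linear_combination -h3 : σ δ (y' / y) * y = 0)).resolve_right hy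
  exact ⟨γ, by rw [Algebra.smul_def, hγ, div_mul_cancel₀ _ hy]⟩

end Vale.Agent.P283R.Sf
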