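import Vale.Agent.P283R.Sf.St

/-!
# P283R, block SF: the monomials generate
-/

open Set

noncomputable section

namespace Vale.Agent.P283R.Sf

open Vale.Agent.P287D Vale.Agent.P283R.Cx Vale.Agent.P297Z Vale.Agent.P283R.Lx
open Vale.Agent.P283R.Lx.K33 (Pw)

namespace N81

variable {K L : Type} [Field K] [Algebra ℂ K] [LieRing L] [LieAlgebra ℂ L] {k r : ℕ}
  {T : Set (Pl K)} {D : Pl K → Fin k → ℤ} {z : Fin r → K} {v : Fin r → Fin k → ℤ}
  {e e' : Fin k → ℤ} {x y : K}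

/-- the action as a linear map -/
def al (σ : L →ₗ⁅ℂ⁆ Derivation ℂ K K) (c : L → (Fin k → ℤ) → K) (δ : L) (e : Fin k → ℤ) :
    K →ₗ[ℂ] K := (σ δ).toLinearMap + LinearMap.mulLeft ℂ (c δ e)

theorem pr_mul (h : Tq.Pr T D e x) (h' : Tq.Pr T D e' y) : Tq.Pr T D (e + e') (x * y) :=
  ⟨mul_ne_zero h.1 h'.1, fun P a => by
    have := h.2 P a
    have := h'.2 P a
    rw [Pl.ord_mul _ h.1 h'.1, add_dotProduct]
    omega⟩

theorem mz_mul (h : x ∈ Mz T D z v e) (h' : y ∈ Mz T D z v e') : x * y ∈ Mz T D z v (e + e') := by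
  refine K33.span_mul ?_ h
  rintro _ ⟨β, θ, p, rfl⟩
  rw [mul_comm]
  refine K33.span_mul ?_ h'
  rintro _ ⟨β', θ', p', rfl⟩
  refine Submodule.subset_span ⟨β + β', θ * θ', ?_, ?_⟩
  · rw [dg_add, ← sub_add_sub_comm]
    exact pr_mul p p'
  · simp only [Pi.add_apply, pow_add, Finset.prod_mul_distrib]
    ring

theorem mz_pr (h : Tq.Pr T D e x) : x ∈ Mz T D z v e :=
  Submodule.subset_span ⟨0, x, by rwa [dg_zero, sub_zero], by simp⟩

theorem pr_one : Tq.Pr T D 0 1 := ⟨one_ne_zero, fun P _ => by simp⟩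

theorem mz_z (j : Fin r) : z j ∈ Mz T D z v (v j) :=
  Submodule.subset_span ⟨Pi.single j 1, 1, by rw [dg_single, sub_self]; exact pr_one, by
    rw [mul_one, Finset.prod_eq_single j (fun l _ h => by simp [h]) (by simp), Pi.single_eq_same,
      pow_one]⟩

theorem kp {σ : L →ₗ⁅ℂ⁆ Derivation ℂ K K} {c : L → (Fin k → ℤ) → K}
    (lb : ∀ δ e e' φ ψ, ac σ c δ (e + e') (φ * ψ) = ac σ c δ e φ * ψ + φ * ac σ c δ e' ψ)
    (un : ∀ e θ, Tq.Pr T D e θ → ∀ δ, ∃ γ : ℂ, ac σ c δ e θ = γ • θ)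
    (iv : ∀ δ j, ac σ c δ (v j) (z j) ∈ Submodule.span ℂ (z '' {i | v i = v j}))
    (e : Fin k → ℤ) : Kp σ c e (Mz T D z v e) := fun δ φ h => by
  let M : (Fin k → ℤ) → Submodule ℂ K := fun e => Mz T D z v e ⊓ (Mz T D z v e).comap (al σ c δ e)
  have mul : ∀ {e e' x y}, x ∈ M e → y ∈ M e' → x * y ∈ M (e + e') := fun {e e' x y} a b =>
    ⟨mz_mul a.1 b.1, show ac σ c δ _ _ ∈ Mz T D z v _ by
      rw [lb]
      exact add_mem (mz_mul a.2 b.1) (mz_mul a.1 b.2)⟩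
  have pr : ∀ e θ, Tq.Pr T D e θ → θ ∈ M e := fun e θ p => ⟨mz_pr p,
    show ac σ c δ _ _ ∈ Mz T D z v _ by
      obtain ⟨γ, w⟩ := un e θ p δ
      rw [w]
      exact Submodule.smul_mem _ _ (mz_pr p)⟩
  have zz : ∀ j, z j ∈ M (v j) := fun j => ⟨mz_z j,
    (show Submodule.span ℂ (z '' {i | v i = v j}) ≤ Mz T D z v (v j) from Submodule.span_le.2 (by
      rintro _ ⟨i, w, rfl⟩
      exact (show v i = v j from w) ▸ mz_z i)) (iv δ j)⟩
  have le : Mz T D z v e ≤ M e := Submodule.span_le.2 (by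
    rintro _ ⟨β, θ, p, rfl⟩
    have := mul (G3.sp_le (M := M) mul (pr _ _ pr_one) zz _ (mon_mem z v β)) (pr _ _ p)
    rwa [add_sub_cancel] at this)
  exact (le h).2

end N81

open N81 in
theorem nakgr81 : NAKGR := by
  intro mul inv kru K L _ _ _ _ k N T D s a A m b σ c fx r z v zs H e
  obtain ⟨lb, -, one⟩ := mul K L k T D _ b σ c fx.act
  have kz := kp lb fx.act.un zs.inv e
  have kw := (inv K L k N T D s a A m b σ c fx).2.2.1
  obtain ⟨M, kM, hd, hs⟩ := fx.act.cr e _ _ kz (fx.act.kp e) (H e).1 le_rfl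
  by_cases hM : M = ⊥
  · rw [← hs, hM, sup_bot_eq]
  obtain ⟨y, hy, y0, ev⟩ := fx.act.ev e M kM (hs ▸ le_sup_right) hM
  refine absurd (kru K k N s a A m fx.zero fx.max.ne_top e y fun i => ?_) y0
  obtain ⟨C, kC, cd, cs⟩ := fx.act.cr e (Mz T D z v e ⊓ Pw A m s a i e) _
    (fun δ φ h => ⟨kz δ φ h.1, kw i e δ φ h.2⟩) (kw i e) inf_le_right (K33.pw_sp i e)
  have le : C ≤ Pw A m s a i e := cs ▸ le_sup_right
  have := (H e).2 i ((hs ▸ le_sup_right : M ≤ Sp s a e) hy)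
  rw [← cs, ← sup_assoc, sup_inf_self] at this
  obtain ⟨p, hp, q, hq, e1⟩ := Submodule.mem_sup.1 this
  obtain ⟨γ, hγ⟩ := one e y q y0 fun δ h => by
    obtain ⟨γ, w⟩ := ev δ h
    refine ⟨γ, w, sub_eq_zero.1 ?_⟩
    have c1 := sub_mem (kC δ q hq) (C.smul_mem γ hq)
    refine Submodule.disjoint_def.1 cd _ ⟨?_, le c1⟩ c1
    have : ac σ c δ e q - γ • q = γ • p - ac σ c δ e p := by
      rw [← e1, smul_add] at w
      rw [sub_eq_sub_iff_add_eq_add, ← w, add_comm]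
      exact (map_add (al σ c δ e) p q).symm
    rw [this]
    exact sub_mem (Submodule.smul_mem _ _ hp) (kz δ p hp)
  have p0 : p = 0 := Submodule.disjoint_def.1 hd _ hp (by
    rw [eq_sub_of_add_eq e1, hγ]
    exact sub_mem hy (M.smul_mem _ hy))
  rw [← e1, p0, zero_add]
  exact le hq

end Vale.Agent.P283R.Sf
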