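import Vale.Agent.P283R.Sf.St

/-!
# P283R, block SF: a function is a constant plus a sum of derivatives
-/

open Set

noncomputable section

namespace Vale.Agent.P283R.Sf

open Vale.Agent.P287D Vale.Agent.P283R.Sl Vale.Agent.P283R.Cx Vale.Agent.P283R.Sg

/-- **PT** -/
theorem pt59 : PT := by
  intro K L _ _ _ _ k T D R b σ c X g hg
  have a0 : ∀ δ φ, ac σ c δ 0 φ = σ δ φ := fun δ φ => by
    have h := X.add δ 0 0
    rw [add_zero, left_eq_add] at h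
    rw [ac, h, zero_mul, add_zero]
  let W := Submodule.span ℂ {y | ∃ δ, ∃ h ∈ R 0, y = σ δ h}
  have mW : ∀ δ, ∀ φ ∈ R 0, ac σ c δ 0 φ ∈ W := fun δ φ h =>
    Submodule.subset_span ⟨δ, φ, h, a0 δ φ⟩
  have le : W ≤ R 0 := Submodule.span_le.2 (by
    rintro _ ⟨δ, h, m, rfl⟩
    exact a0 δ h ▸ X.kp 0 δ h m)
  obtain ⟨M, kM, dj, e⟩ := X.cr 0 W (R 0) (fun δ φ h => mW δ φ (le h)) (X.kp 0) le le_rfl
  obtain ⟨x, hx, y, hy, rfl⟩ := Submodule.mem_sup.1 (e ▸ hg)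
  obtain ⟨γ, rfl⟩ := X.con y fun δ _ => (a0 δ y).symm.trans
    (Submodule.disjoint_def.1 dj _ (mW δ y (e ▸ Submodule.mem_sup_right hy)) (kM δ y hy))
  exact ⟨γ, by rwa [add_sub_cancel_right]⟩

end Vale.Agent.P283R.Sf
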