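import Vale.Agent.P283R.Sf.St
import Vale.Agent.P283R.Tq.Sep87
import Vale.Agent.P283R.Tq.Eigr87

/-!
# P283R, block SF: the row SEP
-/

namespace Vale.Agent.P283R.Sf

open Vale.Agent.P283R.Lx

/-- **SEP** -/
theorem sep87 : SEP := fun _ _ _ _ _ _ T D _ _ s a _ _ J _ hc _ hm ie _ _ i hi j hj ij =>
  have n : ∀ j ∈ J, ¬ Tq.Pr T D (a j) (s j) := fun j q p =>
    (ie j q).2 _ (Tq.E87.pr_sp hc (Tq.E87.pr_inv p)) (by
      rw [mul_inv_cancel₀ p.1]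
      exact O15.nz_one hm.ne_top)
  Tq.sep87 hc (n i hi) (n j hj) ij

/-- **SEPR** -/
theorem sepr87 : SEPR := fun _ => sep87

end Vale.Agent.P283R.Sf
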