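import Vale.Agent.P283R.Sf.St

/-!
# P283R, block SF: the homogeneous elements of the algebra of the generators (row SPA)
-/

open Set

noncomputable section

namespace Vale.Agent.P283R.Sf

open Vale.Agent.P283R.Sl Vale.Agent.P283R.Cx Vale.Agent.P283R.Sg

/-- **SPA** -/
theorem spa40 : SPA := by
  intro K _ _ k N s a e φ
  classical
  refine ⟨fun h => ?_, fun h => ?_⟩
  · have u : ∀ F ∈ Submodule.span ℂ (Submonoid.closure (range fun j => sg (a j) (s j)) :
        Set (Laurent K k)), F.coeff e ∈ Sp s a e := fun F hF => by
      induction hF using Submodule.span_induction with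
      | mem F hF =>
        obtain ⟨m, ψ, p, rfl⟩ : ∃ m, ∃ ψ ∈ Sp s a m, F = sg m ψ := by
          induction hF using Submonoid.closure_induction with
          | mem _ b => obtain ⟨j, rfl⟩ := b; exact ⟨_, _, Lx.G3.gen_sp s a j, rfl⟩
          | one => exact ⟨0, 1, Lx.O15.one_sp s a, rfl⟩
          | mul _ _ _ _ u v =>
            obtain ⟨m, ψ, p, rfl⟩ := u
            obtain ⟨m', ψ', p', rfl⟩ := v
            exact ⟨_, _, sp_mul p p', AddMonoidAlgebra.single_mul_single _ _ _ _⟩
        rw [AddMonoidAlgebra.coeff_single, Finsupp.single_apply]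
        split_ifs with c
        exacts [c ▸ p, zero_mem _]
      | zero => exact zero_mem _
      | add _ _ _ _ u v => exact add_mem u v
      | smul r _ _ u => exact Submodule.smul_mem _ r u
    have := u _ ((Algebra.adjoin_eq_span ℂ (range fun j => sg (a j) (s j))).le h)
    rwa [AddMonoidAlgebra.coeff_single, Finsupp.single_eq_same] at this
  · let R := Algebra.adjoin ℂ (range fun j => sg (a j) (s j))
    let M : (Fin k → ℤ) → Submodule ℂ K := fun m =>
      R.toSubmodule.comap (AddMonoidAlgebra.lsingle m)
    exact Lx.G3.sp_le (M := M) (fun {m m' x y} u v => by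
      have := R.mul_mem u v
      exact (AddMonoidAlgebra.single_mul_single m m' x y ▸ this :)) R.one_mem
      (fun j => Algebra.subset_adjoin ⟨j, rfl⟩) e h

end Vale.Agent.P283R.Sf
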