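import Vale.Agent.P283R.Sl.Sf
import Vale.Agent.P283R.Sg.St
import Vale.Agent.P283R.Tq.Tpo61

/-!
# P283R, block SF: quotients of spherical varieties by finite groups, the statements
-/

open Set CategoryTheory AlgebraicGeometry

noncomputable section

namespace Vale.Agent.P283R.Sf

open Vale.Agent.P287D Vale.Agent.P283R.Sl Vale.Agent.P283R.Cx Vale.Agent.P283R.Sg
open Vale.Agent.P283R.Lx (Nz Ie)
open Vale.Agent.P283R.Lx.K33 (I2 Pw)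
open Vale.Agent.P283R.Tq (Pd Front)

section defs

variable {K L : Type} [Field K] [Algebra ℂ K] [LieRing L] [LieAlgebra ℂ L] {k N n : ℕ}

/-- the action on the sections of degree `e` -/
def ac (σ : L →ₗ⁅ℂ⁆ Derivation ℂ K K) (c : L → (Fin k → ℤ) → K) (δ : L) (e : Fin k → ℤ) (φ : K) :
    K := σ δ φ + c δ e * φ

/-- invariant subspaces in degree `e` -/
def Kp (σ : L →ₗ⁅ℂ⁆ Derivation ℂ K K) (c : L → (Fin k → ℤ) → K) (e : Fin k → ℤ)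
    (W : Submodule ℂ K) : Prop := ∀ δ, ∀ φ ∈ W, ac σ c δ e φ ∈ W

/-- eigenvectors of `b` in degree `e` -/
def Eb (σ : L →ₗ⁅ℂ⁆ Derivation ℂ K K) (c : L → (Fin k → ℤ) → K) (b : LieSubalgebra ℂ L)
    (e : Fin k → ℤ) (y : K) : Prop := ∀ δ ∈ b, ∃ γ : ℂ, ac σ c δ e y = γ • y

/-- the action, degree by degree; `R e` is the space of the sections of degree `e` -/
structure Ac (T : Set (Pl K)) (D : Pl K → Fin k → ℤ) (R : (Fin k → ℤ) → Submodule ℂ K)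
    (b : LieSubalgebra ℂ L) (σ : L →ₗ⁅ℂ⁆ Derivation ℂ K K) (c : L → (Fin k → ℤ) → K) : Prop where
  add : ∀ δ e e', c δ (e + e') = c δ e + c δ e'
  kp : ∀ e, Kp σ c e (R e)
  cr : ∀ e W W', Kp σ c e W → Kp σ c e W' → W ≤ W' → W' ≤ R e →
    ∃ M, Kp σ c e M ∧ Disjoint W M ∧ W ⊔ M = W'
  ev : ∀ e W, Kp σ c e W → W ≤ R e → W ≠ ⊥ → ∃ y ∈ W, y ≠ 0 ∧ Eb σ c b e y
  con : ∀ φ, (∀ δ ∈ b, σ δ φ = 0) → φ ∈ range (algebraMap ℂ K)
  un : ∀ e θ, Tq.Pr T D e θ → ∀ δ, ∃ γ : ℂ, ac σ c δ e θ = γ • θ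

/-- the point `m` of the affinisation is fixed -/
structure Fx (T : Set (Pl K)) (D : Pl K → Fin k → ℤ) (s : Fin N → K) (a : Fin N → Fin k → ℤ)
    (A : Subalgebra ℂ K) (m : Ideal A) (b : LieSubalgebra ℂ L)
    (σ : L →ₗ⁅ℂ⁆ Derivation ℂ K K) (c : L → (Fin k → ℤ) → K) : Prop where
  act : Ac T D (Sp s a) b σ c
  cox : Cox T D s a
  zero : ∀ x, x ∈ A ↔ x ∈ Sp s a 0
  max : m.IsMaximal
  fix : ∀ δ, ∀ g ∈ A, ¬ Nz A m (σ δ g)

/-- the prime eigenvectors `x i` of degree `w i` and the modules `U i` which they generate -/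
structure Hw (d : ℕ) (T : Set (Pl K)) (D : Pl K → Fin k → ℤ) (R : (Fin k → ℤ) → Submodule ℂ K)
    (b : LieSubalgebra ℂ L) (σ : L →ₗ⁅ℂ⁆ Derivation ℂ K K) (c : L → (Fin k → ℤ) → K)
    (x : Fin n → K) (w : Fin n → Fin k → ℤ) (U : Fin n → Submodule ℂ K) : Prop where
  mem : ∀ i, x i ∈ U i
  ne : ∀ i, x i ≠ 0
  nu : ∀ i, ¬ Tq.Pr T D (w i) (x i)
  ev : ∀ i, Eb σ c b (w i) (x i)
  fin : ∀ i, Module.Finite ℂ (U i)
  kp : ∀ i, Kp σ c (w i) (U i)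
  le : ∀ i, U i ≤ R (w i)
  cnt : ∑ i, Module.finrank ℂ (U i) + (d + 1) ≤ n + ell d
  fac : ∀ e, ∀ y ∈ R e, y ≠ 0 → Eb σ c b e y →
    ∃ (ν : Fin n → ℕ) (θ : K), Tq.Pr T D (e - dg w ν) θ ∧ y = (∏ i, x i ^ ν i) * θ
  uns : ∀ J : Finset ((Fin k → ℤ) × K), (∀ p ∈ J, Tq.Pr T D p.1 p.2) →
    ∃ (r : ℕ) (g : Fin r → K) (v : Fin r → Fin k → ℤ), n + r ≤ k + (d + 1) ∧
      (∀ j, Tq.Pr T D (v j) (g j)) ∧ ∀ p ∈ J, p.2 ∈ Sp g v p.1

/-- the span of the `z j * θ` and of the square of the ideal of the orbit -/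
def Sz (T : Set (Pl K)) (D : Pl K → Fin k → ℤ) (s : Fin N → K) (a : Fin N → Fin k → ℤ)
    (A : Subalgebra ℂ K) (m : Ideal A) (z : Fin n → K) (w : Fin n → Fin k → ℤ) (e : Fin k → ℤ) :
    Submodule ℂ K :=
  Submodule.span ℂ {y | ∃ j θ, Tq.Pr T D (e - w j) θ ∧ y = z j * θ} ⊔ I2 A m s a e

/-- the span of the monomials in `z` and the units -/
def Mz (T : Set (Pl K)) (D : Pl K → Fin k → ℤ) (z : Fin n → K) (w : Fin n → Fin k → ℤ)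
    (e : Fin k → ℤ) : Submodule ℂ K :=
  Submodule.span ℂ {y | ∃ (β : Fin n → ℕ) (θ : K), Tq.Pr T D (e - dg w β) θ ∧
    y = (∏ j, z j ^ β j) * θ}

/-- an invariant system in the ideal of the orbit -/
structure Zs (s : Fin N → K) (a : Fin N → Fin k → ℤ) (A : Subalgebra ℂ K) (m : Ideal A)
    (σ : L →ₗ⁅ℂ⁆ Derivation ℂ K K) (c : L → (Fin k → ℤ) → K) (z : Fin n → K)
    (w : Fin n → Fin k → ℤ) : Prop where
  ie : ∀ j, z j ∈ Ie A m s a (w j)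
  inv : ∀ δ j, ac σ c δ (w j) (z j) ∈ Submodule.span ℂ (z '' {i | w i = w j})

/-- the system is independent modulo the square of the ideal of the orbit -/
def Mn (T : Set (Pl K)) (D : Pl K → Fin k → ℤ) (s : Fin N → K) (a : Fin N → Fin k → ℤ)
    (A : Subalgebra ℂ K) (m : Ideal A) (z : Fin n → K) (w : Fin n → Fin k → ℤ)
    (J : Finset (Fin n)) : Prop :=
  ∀ (e : Fin k → ℤ) (I : Finset (Fin n)) (θ : Fin n → K) (γ : Fin n → ℂ), I ⊆ J →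
    (∀ j ∈ I, Tq.Pr T D (e - w j) (θ j)) → ∑ j ∈ I, γ j • (z j * θ j) ∈ I2 A m s a e →
    ∀ j ∈ I, γ j = 0

/-- modulo the ideal of the orbit a section is a multiple of a unit -/
def Uni (T : Set (Pl K)) (D : Pl K → Fin k → ℤ) (s : Fin N → K) (a : Fin N → Fin k → ℤ)
    (A : Subalgebra ℂ K) (m : Ideal A) : Prop :=
  ∀ e, ∀ φ ∈ Sp s a e, φ ∈ Ie A m s a e ∨
    ∃ θ, ∃ γ : ℂ, Tq.Pr T D e θ ∧ φ - γ • θ ∈ Ie A m s a e

end defs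

/-- a property of actions -/
def ForA (q : ∀ (K L : Type) [Field K] [Algebra ℂ K] [LieRing L] [LieAlgebra ℂ L] (k : ℕ)
    (_ : (Fin k → ℤ) → Submodule ℂ K) (_ : LieSubalgebra ℂ L) (_ : L →ₗ⁅ℂ⁆ Derivation ℂ K K),
    (L → (Fin k → ℤ) → K) → Prop) : Prop :=
  ∀ (K L : Type) [Field K] [Algebra ℂ K] [LieRing L] [LieAlgebra ℂ L] (k : ℕ) (T : Set (Pl K))
    (D : Pl K → Fin k → ℤ) (R : (Fin k → ℤ) → Submodule ℂ K) (b : LieSubalgebra ℂ L)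
    (σ : L →ₗ⁅ℂ⁆ Derivation ℂ K K) (c : L → (Fin k → ℤ) → K), Ac T D R b σ c → q K L k R b σ c

/-- a property of actions with a fixed point -/
def ForF (q : ∀ (K L : Type) [Field K] [Algebra ℂ K] [LieRing L] [LieAlgebra ℂ L] (k N : ℕ)
    (_ : Set (Pl K)) (_ : Pl K → Fin k → ℤ) (_ : Fin N → K) (_ : Fin N → Fin k → ℤ)
    (A : Subalgebra ℂ K) (_ : Ideal A) (_ : LieSubalgebra ℂ L) (_ : L →ₗ⁅ℂ⁆ Derivation ℂ K K),
    (L → (Fin k → ℤ) → K) → Prop) : Prop :=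
  ∀ (K L : Type) [Field K] [Algebra ℂ K] [LieRing L] [LieAlgebra ℂ L] (k N : ℕ) (T : Set (Pl K))
    (D : Pl K → Fin k → ℤ) (s : Fin N → K) (a : Fin N → Fin k → ℤ) (A : Subalgebra ℂ K)
    (m : Ideal A) (b : LieSubalgebra ℂ L) (σ : L →ₗ⁅ℂ⁆ Derivation ℂ K K)
    (c : L → (Fin k → ℤ) → K), Fx T D s a A m b σ c → q K L k N T D s a A m b σ c

/-- **SPA**: the homogeneous elements of the algebra of the generators -/
def SPA : Prop := ∀ (K : Type) [Field K] [Algebra ℂ K] (k N : ℕ) (s : Fin N → K)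
  (a : Fin N → Fin k → ℤ) (e : Fin k → ℤ) (φ : K),
    sg e φ ∈ Algebra.adjoin ℂ (range fun j => sg (a j) (s j)) ↔ φ ∈ Sp s a e

/-- **COX**: generators; all divisors are in the span -/
def COX : Prop := ∀ (K : Type) [Field K] [Algebra ℂ K] (d k N : ℕ) (T : Set (Pl K))
  (D : Pl K → Fin k → ℤ) (x : Pl K → K) (e : Pl K → Fin k → ℤ), Fac d T D x e →
    GradedGen N (Sec T D) → ∃ (s : Fin N → K) (a : Fin N → Fin k → ℤ), Cox T D s a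

/-- **COXR** -/
def COXR : Prop := Sg.GG → Sg.FCT → SPA → COX

/-- **AFG**: the lemma of Gordan -/
def AFG : Prop := ∀ (K : Type) [Field K] [Algebra ℂ K] (k N : ℕ) (s : Fin N → K)
  (a : Fin N → Fin k → ℤ) (A : Subalgebra ℂ K), (∀ x, x ∈ A ↔ x ∈ Sp s a 0) → A.FG

/-- **SYS**: another system of generators -/
def SYS : Prop := ∀ (K : Type) [Field K] [Algebra ℂ K] (k N N' : ℕ) (T : Set (Pl K))
  (D : Pl K → Fin k → ℤ) (s : Fin N → K) (a : Fin N → Fin k → ℤ) (s' : Fin N' → K)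
  (a' : Fin N' → Fin k → ℤ), Cox T D s a → (∀ j, s' j ≠ 0 ∧ s' j ∈ Sp s a (a' j)) →
    (∀ j, s j ∈ Sp s' a' (a j)) → Sp s' a' = Sp s a ∧ Cox T D s' a'

/-- **ACK**: the action degree by degree -/
def ACK : Prop := Sg.ForS fun K L _ _ _ _ _ k T D _ _ _ b ρ =>
  ∀ (σ : L →ₗ⁅ℂ⁆ Derivation ℂ K K) (c : L → (Fin k → ℤ) → K) (R : (Fin k → ℤ) → Submodule ℂ K),
    Res ρ σ c → (∀ e φ, φ ∈ R e ↔ φ ∈ Sec T D e) → Ac T D R b σ c

/-- **ACKR** -/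
def ACKR : Prop := Sg.RES → Sg.LIE → Sg.GEN → ACK

/-- **HWK**: the prime eigenvectors degree by degree -/
def HWK : Prop := Sg.ForS fun K L _ _ _ _ d k T D _ _ _ b ρ =>
  ∀ (σ : L →ₗ⁅ℂ⁆ Derivation ℂ K K) (c : L → (Fin k → ℤ) → K) (R : (Fin k → ℤ) → Submodule ℂ K),
    Res ρ σ c → (∀ e φ, φ ∈ R e ↔ φ ∈ Sec T D e) → ∃ (n : ℕ) (x : Fin n → K)
      (w : Fin n → Fin k → ℤ) (U : Fin n → Submodule ℂ K), Hw d T D R b σ c x w U

/-- **HWKR** -/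
def HWKR : Prop := Sg.EIG → Sg.FCT → Sg.CNT → Sg.GEN → Sg.MOD → SPA → HWK

/-- **PT**: a function is a constant plus a sum of derivatives -/
def PT : Prop := ForA fun K _ _ _ _ _ _ R _ σ _ => ∀ g ∈ R 0, ∃ γ : ℂ,
  g - algebraMap ℂ K γ ∈ Submodule.span ℂ {y | ∃ δ, ∃ h ∈ R 0, y = σ δ h}

/-- **MUL**: the rule of Leibniz; multiplicity one -/
def MUL : Prop := ForA fun _ _ _ _ _ _ _ _ b σ c =>
  (∀ δ e e' φ ψ, ac σ c δ (e + e') (φ * ψ) = ac σ c δ e φ * ψ + φ * ac σ c δ e' ψ) ∧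
  (∀ δ φ, ac σ c δ 0 φ = σ δ φ) ∧
  ∀ e y y', y ≠ 0 → (∀ δ ∈ b, ∃ γ : ℂ, ac σ c δ e y = γ • y ∧ ac σ c δ e y' = γ • y') →
    ∃ γ : ℂ, y' = γ • y

/-- **INV**: the ideal of the orbit and its powers are invariant; the units are the constants -/
def INV : Prop := ForF fun K _ _ _ _ _ _ _ T D s a A m _ σ c =>
  (∀ e δ, ∀ φ ∈ Ie A m s a e, ac σ c δ e φ ∈ Ie A m s a e) ∧ (∀ e, Kp σ c e (I2 A m s a e)) ∧
  (∀ i e, Kp σ c e (Pw A m s a i e)) ∧ ∀ θ, Tq.Pr T D 0 θ → θ ∈ range (algebraMap ℂ K)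

/-- **INVR** -/
def INVR : Prop := MUL → INV

/-- **UNI**: the sections modulo the ideal of the orbit -/
def UNI : Prop := ForF fun _ _ _ _ _ _ _ _ T D s a A m b σ c => Uni T D s a A m ∧
  ∀ e, ∀ y ∈ Sp s a e, Eb σ c b e y → y ∈ Ie A m s a e ∨ Tq.Pr T D e y

/-- **UNIR** -/
def UNIR : Prop := PT → MUL → INV → UNI

/-- **MINS**: a minimal invariant system -/
def MINS : Prop := ForF fun K _ _ _ _ _ k _ T D s a A m _ σ c => ∀ (n : ℕ) (w : Fin n → Fin k → ℤ)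
  (U : Fin n → Submodule ℂ K), (∀ i, Module.Finite ℂ (U i)) → (∀ i, Kp σ c (w i) (U i)) →
    (∀ i, ∀ φ ∈ U i, φ ∈ Ie A m s a (w i)) → ∃ (r : ℕ) (z : Fin r → K) (v : Fin r → Fin k → ℤ),
      r ≤ ∑ i, Module.finrank ℂ (U i) ∧ Zs s a A m σ c z v ∧ Mn T D s a A m z v Finset.univ ∧
      ∀ i, U i ≤ Sz T D s a A m z v (w i)

/-- **MINSR** -/
def MINSR : Prop := MUL → INV → MINS

/-- **SPK**: the system generates the ideal of the orbit modulo its square -/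
def SPK : Prop := ForF fun K _ _ _ _ _ k _ T D s a A m b σ c => ∀ (d n r : ℕ) (x : Fin n → K)
  (w : Fin n → Fin k → ℤ) (U : Fin n → Submodule ℂ K) (z : Fin r → K) (v : Fin r → Fin k → ℤ),
    Hw d T D (Sp s a) b σ c x w U → (∀ i, x i ∈ Ie A m s a (w i)) → Zs s a A m σ c z v →
    (∀ i, x i ∈ Sz T D s a A m z v (w i)) → ∀ e, ∀ φ ∈ Ie A m s a e, φ ∈ Sz T D s a A m z v e

/-- **SPKR** -/
def SPKR : Prop := MUL → INV → SPK

/-- **KRU**: the theorem of Krull -/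
def KRU : Prop := ∀ (K : Type) [Field K] [Algebra ℂ K] (k N : ℕ) (s : Fin N → K)
  (a : Fin N → Fin k → ℤ) (A : Subalgebra ℂ K) (m : Ideal A), (∀ x, x ∈ A ↔ x ∈ Sp s a 0) →
    m ≠ ⊤ → ∀ e φ, (∀ i, φ ∈ Pw A m s a i e) → φ = 0

/-- **KRUR** -/
def KRUR : Prop := SPA → KRU

/-- **APX**: the monomials approximate -/
def APX : Prop := ∀ (K : Type) [Field K] [Algebra ℂ K] (k N r : ℕ) (T : Set (Pl K))
  (D : Pl K → Fin k → ℤ) (s : Fin N → K) (a : Fin N → Fin k → ℤ) (A : Subalgebra ℂ K)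
  (m : Ideal A) (z : Fin r → K) (v : Fin r → Fin k → ℤ), Cox T D s a →
    (∀ x, x ∈ A ↔ x ∈ Sp s a 0) → Uni T D s a A m → (∀ j, z j ∈ Ie A m s a (v j)) →
    (∀ e, ∀ φ ∈ Ie A m s a e, φ ∈ Sz T D s a A m z v e) → ∀ e, Mz T D z v e ≤ Sp s a e ∧
      ∀ i, Sp s a e ≤ Mz T D z v e ⊔ Pw A m s a i e

/-- **NAKG**: the monomials generate -/
def NAKG : Prop := ForF fun K _ _ _ _ _ k _ T D s a A m _ σ c => ∀ (r : ℕ) (z : Fin r → K)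
  (v : Fin r → Fin k → ℤ), Zs s a A m σ c z v → (∀ e, Mz T D z v e ≤ Sp s a e ∧
    ∀ i, Sp s a e ≤ Mz T D z v e ⊔ Pw A m s a i e) → ∀ e, Sp s a e ≤ Mz T D z v e

/-- **NAKGR** -/
def NAKGR : Prop := MUL → INV → KRU → NAKG

/-- **SEP**: the variety is separated -/
def SEP : Prop := ∀ (K : Type) [Field K] [Algebra ℂ K] (d k N : ℕ) (T : Set (Pl K))
  (D : Pl K → Fin k → ℤ) (x : Pl K → K) (e : Pl K → Fin k → ℤ) (s : Fin N → K)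
  (a : Fin N → Fin k → ℤ) (A : Subalgebra ℂ K) (m : Ideal A) (J : Finset (Fin N)),
    Fac d T D x e → Cox T D s a → (∀ x, x ∈ A ↔ x ∈ Sp s a 0) → m.IsMaximal →
    (∀ j ∈ J, s j ∈ Ie A m s a (a j)) → Uni T D s a A m → Mn T D s a A m s a J →
    ∀ i ∈ J, ∀ j ∈ J, i ≠ j → ∃ v : Fin N → ℤ, ∑ x, v x • a x = 0 ∧ v i ≠ v j

/-- **SEPR** -/
def SEPR : Prop := Sg.FCT → SEP

/-- **PDF**: the pointed data -/
def PDF : Prop := Sg.ForS fun K L _ _ _ _ d k T D _ _ _ _ ρ =>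
  ∀ (N : ℕ) (σ : L →ₗ⁅ℂ⁆ Derivation ℂ K K) (c : L → (Fin k → ℤ) → K) (A : Subalgebra ℂ K)
    (m : Ideal A), GradedGen N (Sec T D) → Res ρ σ c → (∀ g, g ∈ A ↔ g ∈ Sec T D 0) →
    m.IsMaximal → (∀ δ, ∀ g ∈ A, ¬ Nz A m (σ δ g)) → ∃ (N' : ℕ) (s : Fin N' → K)
      (a : Fin N' → Fin k → ℤ) (J : Finset (Fin N')), Pd d (ell d) T D s a A m J

/-- **ASF** -/
def ASF : Prop := Sg.FCT → COX → AFG → SYS → ACK → HWK → INV → UNI → MINS → SPK → APX → NAKG → SEP →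
  PDF

/-- **SPF**: spherical varieties give pointed data -/
def SPF : Prop := ∀ (Y : Sl.Var) (d : ℕ) (W : Y.X.Opens) (S : Pt Y.X → Prop), 1 ≤ d →
  SphericalFixing W d S → FF Y.K d → {x | S x}.Nonempty → (∀ x ∈ {x | S x}, x.In W) →
    Front (Y := Y.o) d (ell d) W {x | S x}

/-- **SPFR** -/
def SPFR : Prop := Sg.RES → ACK → PT → PDF → SPF

open Sl.Var in
theorem on_of (fc : Tq.FC) (st : Tq.STG) (qu : Tq.QUO) (h : SPF) : On fun d _ _ f ω B z =>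
    FanoType f ω ∧ NefOver f (-logCan ω B) ∧ SphericalQuotient f z d := by
  intro d hd ε hε R hR
  obtain ⟨n, hn, H⟩ := Tq.top_of fc st qu ell d hd ε hε R hR
  exact ⟨n, hn, fun X Z f ω B z a b c e s t ⟨u, v, Y, π, V, p, q, r, w⟩ =>
    H X Z f ω B z a b c e s t ⟨u, v, Y, π, V, p, q, r, h Y d _ _ hd w⟩⟩

end Vale.Agent.P283R.Sf
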