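import Vale.Agent.P283R.Sl.Sf
import Vale.Agent.P283R.Sg.Tor91
import Vale.Agent.P283R.Tq.Torf20

/-!
# P283R, block SF: quotients of toric varieties are quotients of spherical varieties
-/

open Set CategoryTheory AlgebraicGeometry

noncomputable section

namespace Vale.Agent.P283R.Sf

section

open Vale.Agent.P289 (Pt)
open Vale.Agent.P287D Vale.Agent.P283R.To Vale.Agent.P297Z
open Vale.Agent.P283M.Stm Vale.Agent.P283M.Stm.Var Vale.Agent.P283M Vale.Agent.P283M.Br
open Vale.Agent.P283R.Gl Vale.Agent.P283R.Tq.T20 Vale.Agent.P283R.Sg.T91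
open Vale.Agent.P285N.Brep (Fr)

/-- the derivatives along the torus vanish over the fixed point -/
theorem T6.van {Y : Var} {d : ℕ} {W : Y.X.Opens} {y : Fin d → Y.K} (h : TorY W y) {x₀ x : Pt Y.X}
    (hx₀ : x₀ ∈ W) (hx : x ∈ W) {D : Fin d → Derivation ℂ Y.K Y.K} (hD : Fr y D)
    (hv : ∀ v ≠ 0, (∀ x ∈ W, RegAt (mon y v) x) → ¬ RegAt (mon y (-v)) x) (a : Fin d → ℂ)
    {g : Y.K} (hg : ∀ x ∈ W, RegAt g x) : th y D a g ∈ nu x := by
  obtain ⟨k, r, hr, er⟩ := Mt.rays W y
  have y0 := h.1.ne_zero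
  have rg : ∀ g, g ∈ Submodule.span ℂ (mon y ''
      {u | ∀ i, 0 ≤ ∑ j, u j * (pq (r i)).ord (y j) + (0 : Fin k → ℤ) i}) ↔
      ∀ x ∈ W, RegAt g x := fun g => by
    rw [← Mt.sec h hx₀ hr er]
    simp only [Pi.zero_apply, zero_mul, Finset.sum_const_zero, add_zero]
    refine ⟨fun a x hx => ?_, fun a _ E b => ?_⟩
    · rcases eq_or_ne g 0 with rfl | g0
      · exact (lr x).zero_mem
      · exact har Y g x fun E b => a g0 E (b.mem_open W.isOpen hx)
    · rw [pq_ord]
      exact Pl.ord_nonneg_of_mem _ ((pq_is E g).2 (a _ b))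
  replace hg := (rg g).2 hg
  induction hg using Submodule.span_induction with
  | mem _ c =>
    have p := (rg _).1 (Submodule.subset_span c)
    obtain ⟨u, -, rfl⟩ := c
    rw [th_mon hD y0]
    rcases eq_or_ne u 0 with rfl | u0
    · simp
    refine Submodule.smul_mem _ _ (nu_iff.2 ⟨p x hx, fun q => hv u u0 p ?_⟩)
    rw [eq_inv_of_mul_eq_one_right (a := mon y u) (b := mon y (-u))
      (by rw [← mon_add y0, add_neg_cancel, mon_zero])]
    exact q.2.2
  | zero => rw [map_zero]; exact zero_mem _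
  | add _ _ _ _ p q => rw [map_add]; exact add_mem p q
  | smul c _ _ p => rw [Derivation.map_smul]; exact Submodule.smul_mem _ c p

end

attribute [local instance 100] LieRing.ofAssociativeRing

open Sl Sl.Var P287D Sg.T91

/-- a toric variety is spherical, and the torus fixes the points where all monomials vanish -/
theorem T6.fixing {Y : Sl.Var} {d : ℕ} {W : Y.X.Opens} {x₀ : Pt Y.X} (hx : x₀.In W)
    {y : Fin d → Y.K} (h : Gl.TorY (X := Y.o) W y) {S : Pt Y.X → Prop} (SW : ∀ x, S x → x.In W)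
    (hv : ∀ m ≠ 0, monomial y m ∈ regOn W → ∀ x, S x → ¬ RegAt (monomial y (-m)) x) :
    SphericalFixing W d S := by
  obtain ⟨k, r, hr, er⟩ := Mt.rays (X := Y.o) W y
  obtain ⟨D, hD⟩ := Cb.fr_of (h.rat hx).ff h.1
  refine ⟨k, _, fun i => Finsupp.single (r i) 1, Fin d → ℂ, inferInstance, inferInstance, ⊥, ⊤,
    rho k hD, fun E => ?_, Mt.gg_tor h.1.ne_zero _ fun m φ => Mt.sec h hx hr er m φ,
    sph hD h.1.ne_zero fun m φ => Mt.sec h hx hr er m φ, fun a g hg c x s e p => ?_⟩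
  · obtain ⟨m, φ, φ0, e⟩ := Mt.span h hx hr er (Finsupp.single E (1 : ℤ))
      (Finsupp.single E (1 : ℤ)).hasFiniteSupport
    refine ⟨m, φ, φ0, fun E' w => ?_⟩
    classical
    have := e E' w
    rw [Finsupp.single_apply] at this
    show Finsupp.single E (1 : ℚ) E' = _
    rw [Finsupp.single_apply]
    exact_mod_cast this
  · have e' : th y D a g = c :=
      AddMonoidAlgebra.single_right_injective ((lift_single _ 0 g).symm.trans e)
    have := Tq.T20.nu_iff.1 (T6.van h hx (SW x s) hD (fun v v0 b => hv v v0 b x s) a hg)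
    rw [e'] at this
    exact by_contra fun c0 => this.2 ⟨c0, this.1, p⟩

/-- **quotients of toric varieties are quotients of spherical varieties** -/
theorem tor6 {X Z : Sl.Var} {f : X.X ⟶ Z.X} {z : Pt Z.X} {d : ℕ} (hz : ∃ x : Pt X.X, x.map f = z)
    (t : ToricQuotient f z d) : SphericalQuotient f z d := by
  obtain ⟨Y, π, V, y, q, a, b, i, c, v⟩ := t
  obtain ⟨x₁, rfl⟩ := hz
  obtain ⟨x₀, rfl⟩ := q.2.1.surj x₁
  exact ⟨Y, π, V, q, a, b, T6.fixing (x₀ := x₀) b ⟨i, fun x hx =>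
    let ⟨U, a, b, c, S, e, l⟩ := c x hx; ⟨U, a, b, c, S, e, fun g => Set.ext_iff.1 l g⟩⟩
    (fun x e => show (x.map (π ≫ f)).In V from e ▸ b) v⟩

end Vale.Agent.P283R.Sf
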